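import Vale.Agent.P299.H167.Dual
import Vale.Agent.P299.H223.Sec
import Vale.Agent.P299.H882.Family

/-!
# The data of the duality theorem from homogeneous polynomials
-/

open scoped Manifold ContDiff ComplexOrder Topology
open Matrix Set Filter
open Vale.Agent.P272.K Vale.Agent.P272.K.AMP Vale.Agent.P299.D Vale.Agent.P299.H908
open Vale.Agent.P272.K.INT (IsClosedForm)

set_option linter.all false

noncomputable section

namespace Vale.Agent.P299.H738

/-- two sided comparison with a metric -/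
theorem exists_two_sided {n : ℕ} {X : Type} [TopologicalSpace X] [ChartedSpace (Cm n) X]
    [IsManifold 𝓘(ℂ, Cm n) ω X] [CompactSpace X]
    {w b : Chart n X → Cm n → Matrix (Fin n) (Fin n) ℂ} (hw : IsHermitian w)
    (hs : ∀ e x, At e x → ∀ i j, ContDiffAt ℝ ∞ (fun z => b e z i j) (e x))
    (hH : ∀ e x, At e x → (b e (e x)).IsHermitian) (hf : IsForm b) :
    ∃ C : ℝ, 0 ≤ C ∧ (∀ e x, At e x → ((C : ℂ) • w e (e x) - b e (e x)).PosSemidef) ∧
      ∀ e x, At e x → (b e (e x) + (C : ℂ) • w e (e x)).PosSemidef := by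
  have hmono : ∀ {C C' : ℝ} {M N : Matrix (Fin n) (Fin n) ℂ}, M.PosDef → C ≤ C' →
      ((C : ℂ) • M - N).PosSemidef → ((C' : ℂ) • M - N).PosSemidef := by
    intro C C' M N hM hCC h
    have h2 : (((C' - C : ℝ) : ℂ) • M).PosSemidef := H167.smul_psd (sub_nonneg.2 hCC) hM.posSemidef
    have h3 : (C' : ℂ) • M - N = ((C : ℂ) • M - N) + ((C' - C : ℝ) : ℂ) • M := by
      push_cast
      rw [sub_smul]; abel
    rw [h3]
    exact h.add h2
  obtain ⟨C1, h1, H1⟩ := QN.exists_comparison_form hw hs hH hf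
  have hf' : IsForm (fun (e : Chart n X) z => -b e z) := by
    intro e e' x h h'
    show -b e (e x) = _ * (-b e' (e' x)) * _
    rw [hf e e' x h h', Matrix.mul_neg, Matrix.neg_mul]
  obtain ⟨C2, h2, H2⟩ := QN.exists_comparison_form (b := fun e z => -b e z) hw
    (fun e x hx i j => (hs e x hx i j).neg) (fun e x hx => (hH e x hx).neg) hf'
  refine ⟨max C1 C2, le_max_of_le_left h1.le, fun e x hx =>
    hmono (hw.posDef e x hx) (le_max_left _ _) (H1 e x hx), fun e x hx => ?_⟩
  have := hmono (hw.posDef e x hx) (le_max_right C1 C2) (H2 e x hx)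
  rw [sub_neg_eq_add, add_comm] at this
  exact this

variable {n : ℕ} {X : Type} [TopologicalSpace X] [ChartedSpace (Cm n) X] (D : ProjData n X)
  [IsManifold 𝓘(ℂ, Cm n) ω X] {r d : ℕ} (P : Fin r → MvPolynomial (Fin (D.N + 1)) ℂ)

/-- the function `E = c q` -/
def EP (c : ℝ) (d : ℕ) (x : X) : ℝ := c * H223.qP D P d x

/-- the form `η = d ω_FS` -/
def etaP (d : ℕ) : Chart n X → Cm n → Matrix (Fin n) (Fin n) ℂ :=
  fun e z => (d : ℂ) • H223.fsD D e z

lemma EP_pos_iff {c : ℝ} (hc : 0 < c) (x : X) : 0 < EP D P c d x ↔ x ∈ H223.OmP D P := by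
  rw [EP, mul_pos_iff_of_pos_left hc, H223.qP_pos_iff]

lemma smooth_EP (hP : ∀ i, (P i).IsHomogeneous d) (c : ℝ) : SmoothFn (n := n) (EP D P c d) :=
  sm_const_mul c (H223.smooth_qP D P hP)

/-- helper167's `bet` is helper223's `beP` on `OmP` -/
theorem bet_EP (hP : ∀ i, (P i).IsHomogeneous d) {c : ℝ} (hc : 0 < c) {e : Chart n X} {x : X}
    (hx : At e x) (hxO : x ∈ H223.OmP D P) :
    H167.bet (etaP D d) (EP D P c d) e (e x) = H223.beP D P e (e x) := by
  have h0 : 0 < EP D P c d x := (EP_pos_iff D P hc x).2 hxO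
  rw [H223.beP_eq_add D P hP hxO hx, H167.bet, H167.Lg_eq (smooth_EP D P hP c) hx h0]
  show etaP D d e (e x) + cHess (fun y => Real.log (EP D P c d (e.symm y))) (e x) = _
  congr 1
  have hev : (fun y => Real.log (EP D P c d (e.symm y))) =ᶠ[𝓝 (e x)]
      fun y => Real.log (H223.qP D P d (e.symm y)) + Real.log c := by
    have h1 : ∀ᶠ y in 𝓝 (e x), e.symm y ∈ H223.OmP D P := by
      apply (e.continuousAt_symm (e.map_source hx.2)).eventually_mem
      rw [e.left_inv hx.2]
      exact (H223.isOpen_OmP D P hP).mem_nhds hxO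
    filter_upwards [h1] with y hy
    rw [EP, Real.log_mul hc.ne' ((H223.qP_pos_iff D P _).2 hy).ne', add_comm]
  have hq : ContDiffAt ℝ 2 (fun y => Real.log (H223.qP D P d (e.symm y))) (e x) := by
    have h2 : H223.qP D P d (e.symm (e x)) ≠ 0 := by
      rw [e.left_inv hx.2]
      exact ((H223.qP_pos_iff D P x).2 hxO).ne'
    exact (((H223.smooth_qP D P hP) e x hx).of_le (by norm_cast)).log h2
  rw [cHess_congr hev, cHess_add hq contDiffAt_const, cHess_const, add_zero]

/-- **the data of the duality theorem** for `Θ = Ric(w)`, `E = c q`, `η = d ω_FS`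
(kernel condition on a dense set) -/
theorem exists_data_dense [T2Space X] [CompactSpace X] [Nonempty X]
    {w : Chart n X → Cm n → Matrix (Fin n) (Fin n) ℂ} (hw : IsKahler w) (hric : RicNonneg w)
    (hP : ∀ i, (P i).IsHomogeneous d)
    (hker : ∃ U : Set X, Dense U ∧ ∀ e x, At e x → x ∈ U → x ∈ H223.OmP D P →
      (∀ e' y, At e' y → (ric w e' (e' y)).rank ≤ (ric w e (e x)).rank) →
      ∀ v, ric w e (e x) *ᵥ v = 0 → star v ⬝ᵥ (H223.beP D P e (e x) *ᵥ v) = 0) :
    ∃ c C Λ : ℝ, ∃ ν : ℕ, 0 < c ∧ H167.Data w (ric w) (etaP D d) (EP D P c d) C Λ ν := by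
  -- the constant `c`
  have hq := INT.SmoothFn.continuous (H223.smooth_qP D P hP)
  obtain ⟨B, hB⟩ := isCompact_univ.exists_bound_of_continuousOn hq.continuousOn
  have hB1 : ∀ x, H223.qP D P d x ≤ max B 1 := fun x =>
    (le_abs_self _).trans ((hB x (mem_univ x)).trans (le_max_left _ _))
  have hB0 : 0 < max B 1 := lt_max_of_lt_right one_pos
  have hc : 0 < (max B 1)⁻¹ := inv_pos.2 hB0
  -- the forms
  have hfs := H223.isKahler_fsD D
  have hfsc : IsClosedForm (etaP D d) := (INT.IsKahler.isClosedForm hfs).smul (d : ℂ)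
  have hfsH : ∀ e x, At e x → (etaP D d e (e x)).IsHermitian := by
    intro e x hx
    have h1 := (hfs.posDef e x hx).isHermitian
    show ((d : ℂ) • H223.fsD D e (e x)).conjTranspose = _
    rw [conjTranspose_smul, h1.eq]
    simp [etaP]
  have hRc := H882.isClosed_ric hw
  obtain ⟨C, hC0, hC1, hC2⟩ := exists_two_sided hw.toIsHermitian hfsc.smooth hfsH hfsc.form
  obtain ⟨Λ, hΛ0, hΛ1, -⟩ := exists_two_sided hw.toIsHermitian hRc.smooth
    (fun e x hx => (hric e x hx).isHermitian) hRc.form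
  -- the rank
  obtain ⟨x0⟩ := ‹Nonempty X›
  set Rk : Set ℕ := {k | ∃ (e : Chart n X) (x : X), At e x ∧ (ric w e (e x)).rank = k} with hRk
  have hne : Rk.Nonempty := ⟨_, chartAt (Cm n) x0, x0, at_chartAt x0, rfl⟩
  have hbdd : BddAbove Rk := ⟨n, by
    rintro k ⟨e, x, hx, rfl⟩
    exact Matrix.rank_le_height _⟩
  have hmem := Nat.sSup_mem hne hbdd
  have hle : ∀ (e : Chart n X) (x : X), At e x → (ric w e (e x)).rank ≤ sSup Rk := fun e x hx =>
    le_csSup hbdd ⟨e, x, hx, rfl⟩
  refine ⟨(max B 1)⁻¹, C, Λ, sSup Rk, hc, ?_⟩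
  exact
    { S :=
        { hw := hw
          closed := hfsc.closed
          smooth := hfsc.smooth
          form := hfsc.form
          hE := smooth_EP D P hP _
          E1 := fun x => by
            rw [EP, inv_mul_le_iff₀ hB0, mul_one]
            exact hB1 x
          hC := hC0
          hη1 := hC1
          hη2 := hC2
          hβ := fun e x hx h0 => by
            have hxO := (EP_pos_iff D P hc x).1 h0
            rw [bet_EP D P hP hc hx hxO]
            exact H223.beP_posSemidef D P hP hxO hx }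
      closed := hRc.closed
      smooth := hRc.smooth
      form := hRc.form
      psd := hric
      Λ0 := hΛ0
      hΛ := hΛ1
      rank_le := hle
      rank_eq := by
        obtain ⟨e, x, hx, h⟩ := hmem
        exact ⟨e, x, hx, h⟩
      ker := by
        obtain ⟨U, hU, hk⟩ := hker
        refine ⟨U, hU, fun e x hx hxU h0 hrk ξ hξ => ?_⟩
        have hxO := (EP_pos_iff D P hc x).1 h0
        rw [bet_EP D P hP hc hx hxO]
        exact hk e x hx hxU hxO (fun e' y hy => hrk ▸ hle e' y hy) ξ hξ }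

/-- **the data of the duality theorem** for `Θ = Ric(w)`, `E = c q`, `η = d ω_FS` -/
theorem exists_data [T2Space X] [CompactSpace X] [Nonempty X]
    {w : Chart n X → Cm n → Matrix (Fin n) (Fin n) ℂ} (hw : IsKahler w) (hric : RicNonneg w)
    (hP : ∀ i, (P i).IsHomogeneous d)
    (hker : ∀ e x, At e x → x ∈ H223.OmP D P →
      (∀ e' y, At e' y → (ric w e' (e' y)).rank ≤ (ric w e (e x)).rank) →
      ∀ v, ric w e (e x) *ᵥ v = 0 → H223.beP D P e (e x) *ᵥ v = 0) :
    ∃ c C Λ : ℝ, ∃ ν : ℕ, 0 < c ∧ H167.Data w (ric w) (etaP D d) (EP D P c d) C Λ ν :=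
  exists_data_dense D P hw hric hP ⟨univ, dense_univ, fun e x hx _ hxO hr v hv => by
    rw [hker e x hx hxO hr v hv, dotProduct_zero]⟩

end Vale.Agent.P299.H738
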