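import Vale.Agent.P299.H738.ElPt
import Vale.Agent.P272.K.QN.H527.Tools
import Mathlib.Analysis.SpecialFunctions.SmoothTransition
import Mathlib.MeasureTheory.Integral.IntervalIntegral.FundThmCalculus

/-!
# El Mir by hand: truncations and cut-off functions
-/

open scoped Manifold ContDiff ComplexConjugate ComplexOrder Topology
open Matrix Set Filter
open Vale.Agent.P272.K

set_option linter.all false

noncomputable section

namespace Vale.Agent.P299.H738.El

/-! ### the profile -/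

/-- `∫_0^t S`, `S` the smooth transition -/
def th (t : ℝ) : ℝ := ∫ s in (0 : ℝ)..t, Real.smoothTransition s

lemma hasDerivAt_th (t : ℝ) : HasDerivAt th (Real.smoothTransition t) t :=
  intervalIntegral.integral_hasDerivAt_right
    (Real.smoothTransition.continuous.intervalIntegrable _ _)
    (Real.smoothTransition.continuous.stronglyMeasurableAtFilter _ _)
    Real.smoothTransition.continuous.continuousAt

lemma deriv_th : deriv th = Real.smoothTransition := funext fun t => (hasDerivAt_th t).deriv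

lemma contDiff_th : ContDiff ℝ ∞ th := by
  rw [contDiff_infty_iff_deriv]
  refine ⟨fun t => (hasDerivAt_th t).differentiableAt, ?_⟩
  rw [deriv_th]
  exact Real.smoothTransition.contDiff

lemma th_mono : Monotone th :=
  monotone_of_deriv_nonneg (fun t => (hasDerivAt_th t).differentiableAt) fun t => by
    rw [deriv_th]; exact Real.smoothTransition.nonneg t

lemma th_zero' : th 0 = 0 := by simp [th]

lemma th_of_nonpos {t : ℝ} (ht : t ≤ 0) : th t = 0 := by
  unfold th
  rw [intervalIntegral.integral_congr (g := fun _ => (0 : ℝ))]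
  · simp
  · intro s hs
    rw [uIcc_of_ge ht] at hs
    exact Real.smoothTransition.zero_of_nonpos hs.2

lemma th_nonneg (t : ℝ) : 0 ≤ th t := by
  rcases le_total t 0 with h | h
  · rw [th_of_nonpos h]
  · rw [← th_zero']; exact th_mono h

lemma th_pos {t : ℝ} (ht : 0 < t) : 0 < th t := by
  unfold th
  refine intervalIntegral.intervalIntegral_pos_of_pos_on
    (Real.smoothTransition.continuous.intervalIntegrable _ _) (fun x hx => ?_) ht
  exact Real.smoothTransition.pos_of_pos hx.1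

lemma deriv_S_nonneg (t : ℝ) : 0 ≤ deriv Real.smoothTransition t :=
  Real.smoothTransition.monotone.deriv_nonneg

lemma hasDerivAt_S (t : ℝ) :
    HasDerivAt Real.smoothTransition (deriv Real.smoothTransition t) t :=
  ((Real.smoothTransition.contDiff (n := 1)).differentiable one_ne_zero t).hasDerivAt

lemma deriv_S_zero {t : ℝ} (ht : 1 ≤ t) : deriv Real.smoothTransition t = 0 := by
  have h1 : IsLocalMax Real.smoothTransition t := by
    refine Eventually.of_forall fun s => ?_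
    rw [Real.smoothTransition.one_of_one_le ht]
    exact Real.smoothTransition.le_one s
  exact h1.deriv_eq_zero

/-- the rescaled profile -/
def pr (a c : ℝ) (t : ℝ) : ℝ := th (a + c * t)

lemma hasDerivAt_pr (a c t : ℝ) :
    HasDerivAt (pr a c) (c * Real.smoothTransition (a + c * t)) t := by
  have h1 : HasDerivAt (fun t : ℝ => a + c * t) c t := by
    simpa using ((hasDerivAt_id t).const_mul c).const_add a
  have h2 := (hasDerivAt_th (a + c * t)).comp t h1
  rw [mul_comm]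
  exact h2

lemma deriv_pr (a c : ℝ) : deriv (pr a c) = fun t => c * Real.smoothTransition (a + c * t) :=
  funext fun t => (hasDerivAt_pr a c t).deriv

lemma deriv2_pr (a c t : ℝ) :
    deriv (deriv (pr a c)) t = c ^ 2 * deriv Real.smoothTransition (a + c * t) := by
  rw [deriv_pr]
  have h1 : HasDerivAt (fun t : ℝ => a + c * t) c t := by
    simpa using ((hasDerivAt_id t).const_mul c).const_add a
  have h2 := ((hasDerivAt_S (a + c * t)).comp t h1).const_mul c
  have h3 := h2.deriv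
  simp only [Function.comp_def] at h3
  rw [h3]; ring

lemma contDiff_pr (a c : ℝ) : ContDiff ℝ ∞ (pr a c) :=
  contDiff_th.comp (contDiff_const.add (contDiff_const.mul contDiff_id))

/-! ### the data -/

variable {n : ℕ} {X : Type*} [TopologicalSpace X]

/-- the `(1,1)`-form `eta + i ddbar Ps` -/
def bet (eta : Chart n X → Cm n → Matrix (Fin n) (Fin n) ℂ) (Ps : X → ℝ) :
    Chart n X → Cm n → Matrix (Fin n) (Fin n) ℂ :=
  fun e z => eta e z + cHess (fun y => Ps (e.symm y)) z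

open Classical in
/-- `f ∘ Ps` on `Om`, `0` elsewhere -/
def ext (Om : Set X) (Ps : X → ℝ) (f : ℝ → ℝ) (x : X) : ℝ := if x ∈ Om then f (Ps x) else 0

lemma ext_mem {Om : Set X} {Ps : X → ℝ} {f : ℝ → ℝ} {x : X} (h : x ∈ Om) :
    ext Om Ps f x = f (Ps x) := by
  unfold ext; rw [if_pos h]

lemma ext_notMem {Om : Set X} {Ps : X → ℝ} {f : ℝ → ℝ} {x : X} (h : x ∉ Om) :
    ext Om Ps f x = 0 := by
  unfold ext; rw [if_neg h]

variable [ChartedSpace (Cm n) X]

/-- closed real `(1,1)`-forms -/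
structure Cl11 (eta : Chart n X → Cm n → Matrix (Fin n) (Fin n) ℂ) : Prop
    extends INT.IsClosedForm eta where
  herm : ∀ e x, At e x → (eta e (e x)).IsHermitian

/-- the data of the El Mir argument -/
structure ElData (Om : Set X) (Ps : X → ℝ)
    (eta : Chart n X → Cm n → Matrix (Fin n) (Fin n) ℂ) : Prop where
  isOpen : IsOpen Om
  smooth : ∀ (e : Chart n X) x, At e x → x ∈ Om → ContDiffAt ℝ ∞ (fun z => Ps (e.symm z)) (e x)
  nonpos : ∀ x ∈ Om, Ps x ≤ 0
  cpt : ∀ M : ℝ, IsCompact {x | x ∈ Om ∧ -M ≤ Ps x}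
  cl : Cl11 eta
  pos : ∀ e x, At e x → x ∈ Om → (bet eta Ps e (e x)).PosSemidef

variable {Om : Set X} {Ps : X → ℝ} {eta w : Chart n X → Cm n → Matrix (Fin n) (Fin n) ℂ}
  {f : ℝ → ℝ} {e : Chart n X} {x : X} {M : ℝ}

lemma ext_eventually_mem (hO : IsOpen Om) (hx : At e x) (hxO : x ∈ Om) :
    (fun y => ext Om Ps f (e.symm y)) =ᶠ[𝓝 (e x)] fun y => f (Ps (e.symm y)) := by
  have h1 : ∀ᶠ y in 𝓝 (e x), e.symm y ∈ Om := by
    apply (e.continuousAt_symm (e.map_source hx.2)).eventually_mem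
    rw [e.left_inv hx.2]
    exact hO.mem_nhds hxO
  filter_upwards [h1] with y hy
  exact ext_mem hy

lemma ext_eventually_notMem [T2Space X] (h : ElData Om Ps eta) (h0 : ∀ t, t ≤ -M → f t = 0)
    (hx : At e x) (hxO : x ∉ Om) :
    (fun y => ext Om Ps f (e.symm y)) =ᶠ[𝓝 (e x)] fun _ => (0 : ℝ) := by
  have hcl : IsClosed {x | x ∈ Om ∧ -M ≤ Ps x} := (h.cpt M).isClosed
  have h1 : ∀ᶠ y in 𝓝 (e x), e.symm y ∈ {x | x ∈ Om ∧ -M ≤ Ps x}ᶜ := by
    apply (e.continuousAt_symm (e.map_source hx.2)).eventually_mem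
    rw [e.left_inv hx.2]
    exact hcl.isOpen_compl.mem_nhds fun hh => hxO hh.1
  filter_upwards [h1] with y hy
  by_cases hyO : e.symm y ∈ Om
  · rw [ext_mem hyO]
    refine h0 _ ?_
    by_contra hcon
    exact hy ⟨hyO, (not_le.1 hcon).le⟩
  · exact ext_notMem hyO

lemma ext_smooth [T2Space X] (h : ElData Om Ps eta) (hf : ContDiff ℝ ∞ f)
    (h0 : ∀ t, t ≤ -M → f t = 0) : SmoothFn (n := n) (ext Om Ps f) := by
  intro e x hx
  by_cases hxO : x ∈ Om
  · refine ContDiffAt.congr_of_eventuallyEq ?_ (ext_eventually_mem h.isOpen hx hxO)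
    exact hf.contDiffAt.comp (e x) (h.smooth e x hx hxO)
  · exact contDiffAt_const.congr_of_eventuallyEq (ext_eventually_notMem h h0 hx hxO)

lemma ext_cHess_mem (h : ElData Om Ps eta) (hf : ContDiff ℝ ∞ f) (hx : At e x) (hxO : x ∈ Om) :
    cHess (fun y => ext Om Ps f (e.symm y)) (e x) =
      ((deriv f (Ps x) : ℝ) : ℂ) • cHess (fun y => Ps (e.symm y)) (e x) +
      ((deriv (deriv f) (Ps x) : ℝ) : ℂ) •
        AMP.gm (fun y => Ps (e.symm y)) (fun y => Ps (e.symm y)) (e x) := by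
  rw [cHess_congr (ext_eventually_mem h.isOpen hx hxO)]
  have h1 := AMP.cHess_comp_real (z := e x) (f := fun y => Ps (e.symm y)) (φ := f)
    (hf.contDiffAt.of_le (by norm_cast)) ((h.smooth e x hx hxO).of_le (by norm_cast))
  simp only [e.left_inv hx.2] at h1
  exact h1

lemma ext_cHess_notMem [T2Space X] (h : ElData Om Ps eta) (h0 : ∀ t, t ≤ -M → f t = 0)
    (hx : At e x) (hxO : x ∉ Om) :
    cHess (fun y => ext Om Ps f (e.symm y)) (e x) = 0 := by
  rw [cHess_congr (ext_eventually_notMem h h0 hx hxO), cHess_const]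

/-- two sided bound -/
def Bd (C : ℝ) (w b : Chart n X → Cm n → Matrix (Fin n) (Fin n) ℂ) : Prop :=
  ∀ e x, At e x → ((C : ℂ) • w e (e x) - b e (e x)).PosSemidef ∧
    ((C : ℂ) • w e (e x) + b e (e x)).PosSemidef

lemma IsForm.neg' {b : Chart n X → Cm n → Matrix (Fin n) (Fin n) ℂ} (hb : IsForm b) :
    IsForm (fun e z => -b e z) := by
  intro e e' x h h'
  show -b e (e x) = _ * (-b e' (e' x)) * _
  rw [hb e e' x h h', Matrix.mul_neg, Matrix.neg_mul]

lemma psd_mono {C C' : ℝ} (h : C ≤ C') {w b : Matrix (Fin n) (Fin n) ℂ} (hw : w.PosSemidef)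
    (hb : ((C : ℂ) • w + b).PosSemidef) : ((C' : ℂ) • w + b).PosSemidef := by
  have : (C' : ℂ) • w + b = ((C : ℂ) • w + b) + ((C' - C : ℝ) : ℂ) • w := by
    push_cast; rw [sub_smul]; abel
  rw [this]
  exact hb.add (posSemidef_smul (sub_nonneg.2 h) hw)

/-- every smooth real `(1,1)`-form is bounded by the metric -/
theorem exists_bd [IsManifold 𝓘(ℂ, Cm n) ω X] [CompactSpace X] (hw : IsHermitian w)
    {b : Chart n X → Cm n → Matrix (Fin n) (Fin n) ℂ}
    (hs : ∀ e x, At e x → ∀ i j, ContDiffAt ℝ ∞ (fun z => b e z i j) (e x))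
    (hH : ∀ e x, At e x → (b e (e x)).IsHermitian) (hf : IsForm b) :
    ∃ C : ℝ, 0 < C ∧ Bd C w b := by
  obtain ⟨C1, h1, H1⟩ := QN.exists_comparison_form hw hs hH hf
  obtain ⟨C2, h2, H2⟩ := QN.exists_comparison_form (b := fun e z => -b e z) hw
    (fun e x hx i j => (hs e x hx i j).neg) (fun e x hx => (hH e x hx).neg) (IsForm.neg' hf)
  refine ⟨max C1 C2, lt_max_of_lt_left h1, fun e x hx => ⟨?_, ?_⟩⟩
  · have := psd_mono (le_max_left C1 C2) (hw.posDef e x hx).posSemidef
      (b := -b e (e x)) (by rw [← sub_eq_add_neg]; exact H1 e x hx)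
    rwa [← sub_eq_add_neg] at this
  · refine psd_mono (le_max_right C1 C2) (hw.posDef e x hx).posSemidef ?_
    have := H2 e x hx
    rwa [sub_neg_eq_add] at this

/-- lower bound for the Hessian of an extended function -/
lemma ext_lower [T2Space X] (h : ElData Om Ps eta) (hw : ∀ e x, At e x → (w e (e x)).PosDef)
    {C L : ℝ} (hC : 0 ≤ C) (hb : Bd C w eta) (hf : ContDiff ℝ ∞ f) (h0 : ∀ t, t ≤ -M → f t = 0)
    (h1 : ∀ t, 0 ≤ deriv f t) (h2 : ∀ t, 0 ≤ deriv (deriv f) t) (hL : ∀ t, deriv f t ≤ L)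
    (hx : At e x) :
    (((L * C : ℝ) : ℂ) • w e (e x) + cHess (fun y => ext Om Ps f (e.symm y)) (e x)).PosSemidef := by
  have hL0 : 0 ≤ L := (h1 0).trans (hL 0)
  by_cases hxO : x ∈ Om
  · rw [ext_cHess_mem h hf hx hxO]
    set d := deriv f (Ps x) with hd
    set H := cHess (fun y => Ps (e.symm y)) (e x) with hH
    set G := AMP.gm (fun y => Ps (e.symm y)) (fun y => Ps (e.symm y)) (e x) with hG
    have hB : (bet eta Ps e (e x)).PosSemidef := h.pos e x hx hxO
    have e1 : ((L * C : ℝ) : ℂ) • w e (e x) + ((d : ℂ) • H +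
        ((deriv (deriv f) (Ps x) : ℝ) : ℂ) • G) =
        (((L - d) * C : ℝ) : ℂ) • w e (e x) + (d : ℂ) • ((C : ℂ) • w e (e x) - eta e (e x)) +
          (d : ℂ) • bet eta Ps e (e x) + ((deriv (deriv f) (Ps x) : ℝ) : ℂ) • G := by
      have : bet eta Ps e (e x) = eta e (e x) + H := rfl
      rw [this]
      push_cast
      module
    rw [e1]
    refine (((posSemidef_smul ?_ (hw e x hx).posSemidef).add (posSemidef_smul (h1 _)
      (hb e x hx).1)).add (posSemidef_smul (h1 _) hB)).add (posSemidef_smul (h2 _)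
        (AMP.gm_self_posSemidef _ _))
    exact mul_nonneg (sub_nonneg.2 (hL _)) hC
  · rw [ext_cHess_notMem h h0 hx hxO, add_zero]
    exact posSemidef_smul (mul_nonneg hL0 hC) (hw e x hx).posSemidef

/-! ### the truncation -/

/-- the truncation `Ps_M` -/
def trn (Om : Set X) (Ps : X → ℝ) (M : ℝ) : X → ℝ := ext Om Ps (pr M 1)

/-- `eta + i ddbar Ps_M` -/
def betM (eta : Chart n X → Cm n → Matrix (Fin n) (Fin n) ℂ) (Om : Set X) (Ps : X → ℝ) (M : ℝ) :
    Chart n X → Cm n → Matrix (Fin n) (Fin n) ℂ := bet eta (trn Om Ps M)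

lemma pr_zero {a c : ℝ} (hc : 0 < c) {t : ℝ} (ht : t ≤ -(a / c)) : pr a c t = 0 := by
  unfold pr
  apply th_of_nonpos
  have h1 : c * t ≤ c * -(a / c) := mul_le_mul_of_nonneg_left ht hc.le
  have : c * -(a / c) = -a := by field_simp
  linarith

lemma trn_smooth [T2Space X] (h : ElData Om Ps eta) (M : ℝ) :
    SmoothFn (n := n) (trn Om Ps M) :=
  ext_smooth (M := M) h (contDiff_pr _ _) fun t ht => pr_zero one_pos (by simpa using ht)

variable [IsManifold 𝓘(ℂ, Cm n) ω X]

lemma Cl11.addH {u : X → ℝ} (h : Cl11 eta) (hu : SmoothFn (n := n) u) :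
    Cl11 (fun e z => eta e z + cHess (fun y => u (e.symm y)) z) where
  toIsClosedForm := h.toIsClosedForm.add (INT.isClosedForm_cHess hu)
  herm e x hx := (h.herm e x hx).add (cHess_isHermitian ((hu e x hx).of_le (by norm_cast)))

lemma betM_cl [T2Space X] (h : ElData Om Ps eta) (M : ℝ) : Cl11 (betM eta Om Ps M) :=
  h.cl.addH (trn_smooth h M)

/-- `eta + i ddbar Ps_M` is `≥ -C w`, with `C` independent of `M` -/
lemma betM_lower [T2Space X] (h : ElData Om Ps eta) (hw : ∀ e x, At e x → (w e (e x)).PosDef)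
    {C : ℝ} (hC : 0 ≤ C) (hb : Bd C w eta) (M : ℝ) (hx : At e x) :
    ((C : ℂ) • w e (e x) + betM eta Om Ps M e (e x)).PosSemidef := by
  by_cases hxO : x ∈ Om
  · show ((C : ℂ) • w e (e x) + (eta e (e x) +
      cHess (fun y => ext Om Ps (pr M 1) (e.symm y)) (e x))).PosSemidef
    rw [ext_cHess_mem h (contDiff_pr M 1) hx hxO, deriv2_pr, deriv_pr]
    simp only [one_mul, one_pow]
    set s := Real.smoothTransition (M + Ps x) with hs
    set H := cHess (fun y => Ps (e.symm y)) (e x) with hH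
    set G := AMP.gm (fun y => Ps (e.symm y)) (fun y => Ps (e.symm y)) (e x) with hG
    have hs0 : 0 ≤ s := Real.smoothTransition.nonneg _
    have hs1 : s ≤ 1 := Real.smoothTransition.le_one _
    have hB : (bet eta Ps e (e x)).PosSemidef := h.pos e x hx hxO
    have e1 : (C : ℂ) • w e (e x) + (eta e (e x) + ((s : ℂ) • H +
        ((deriv Real.smoothTransition (M + Ps x) : ℝ) : ℂ) • G)) =
        ((1 - s : ℝ) : ℂ) • ((C : ℂ) • w e (e x) + eta e (e x)) +
          ((s * C : ℝ) : ℂ) • w e (e x) + (s : ℂ) • bet eta Ps e (e x) +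
          ((deriv Real.smoothTransition (M + Ps x) : ℝ) : ℂ) • G := by
      have : bet eta Ps e (e x) = eta e (e x) + H := rfl
      rw [this]
      push_cast
      module
    rw [e1]
    exact (((posSemidef_smul (sub_nonneg.2 hs1) (hb e x hx).2).add (posSemidef_smul
      (mul_nonneg hs0 hC) (hw e x hx).posSemidef)).add (posSemidef_smul hs0 hB)).add
      (posSemidef_smul (deriv_S_nonneg _) (AMP.gm_self_posSemidef _ _))
  · show ((C : ℂ) • w e (e x) + (eta e (e x) +
      cHess (fun y => ext Om Ps (pr M 1) (e.symm y)) (e x))).PosSemidef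
    rw [ext_cHess_notMem (M := M) h (fun t ht => pr_zero one_pos (by simpa using ht)) hx hxO,
      add_zero]
    exact (hb e x hx).2

/-- on `{Ps ≥ 1 - M}` nothing is changed -/
lemma betM_eq (h : ElData Om Ps eta) (hx : At e x) (hxO : x ∈ Om) (hM : 1 - M ≤ Ps x) :
    betM eta Om Ps M e (e x) = bet eta Ps e (e x) := by
  show eta e (e x) + cHess (fun y => ext Om Ps (pr M 1) (e.symm y)) (e x) =
    eta e (e x) + cHess (fun y => Ps (e.symm y)) (e x)
  rw [ext_cHess_mem h (contDiff_pr M 1) hx hxO, deriv2_pr, deriv_pr]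
  simp only [one_mul, one_pow]
  have h1 : 1 ≤ M + Ps x := by linarith
  rw [Real.smoothTransition.one_of_one_le h1, deriv_S_zero h1]
  simp

/-! ### the cut-off functions -/

/-- the cut-off functions -/
def cut (Om : Set X) (Ps : X → ℝ) (k : ℕ) : X → ℝ :=
  ext Om Ps fun t => (th 1)⁻¹ * pr 1 (2 / k) t

variable {k : ℕ}

lemma cutP_smooth (k : ℕ) : ContDiff ℝ ∞ (fun t => (th 1)⁻¹ * pr 1 (2 / k) t) :=
  contDiff_const.mul (contDiff_pr _ _)

lemma cutP_zero (hk : 1 ≤ k) {t : ℝ} (ht : t ≤ -(k / 2 : ℝ)) :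
    (th 1)⁻¹ * pr 1 (2 / k) t = 0 := by
  have hk' : (0 : ℝ) < k := by exact_mod_cast hk
  rw [pr_zero (by positivity) (by
    have : (1 : ℝ) / (2 / k) = k / 2 := by field_simp
    rw [this]; exact ht), mul_zero]

lemma th_one_pos : 0 < th 1 := th_pos one_pos

omit [IsManifold 𝓘(ℂ, Cm n) ω X] in
lemma cut_smooth [T2Space X] (h : ElData Om Ps eta) (hk : 1 ≤ k) :
    SmoothFn (n := n) (cut Om Ps k) :=
  ext_smooth (M := k / 2) h (cutP_smooth k) fun t ht => cutP_zero hk ht

omit [ChartedSpace (Cm n) X] [IsManifold 𝓘(ℂ, Cm n) ω X] in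
lemma cut_nonneg (x : X) : 0 ≤ cut Om Ps k x := by
  by_cases hx : x ∈ Om
  · rw [cut, ext_mem hx]
    exact mul_nonneg (inv_nonneg.2 (th_nonneg _)) (th_nonneg _)
  · rw [cut, ext_notMem hx]

omit [IsManifold 𝓘(ℂ, Cm n) ω X] in
lemma cut_le_one (h : ElData Om Ps eta) (x : X) : cut Om Ps k x ≤ 1 := by
  by_cases hx : x ∈ Om
  · rw [cut, ext_mem hx, inv_mul_le_iff₀ th_one_pos, mul_one]
    apply th_mono
    have h1 : (2 / k : ℝ) * Ps x ≤ 0 :=
      mul_nonpos_of_nonneg_of_nonpos (by positivity) (h.nonpos x hx)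
    linarith
  · rw [cut, ext_notMem hx]; norm_num

omit [IsManifold 𝓘(ℂ, Cm n) ω X] in
lemma cut_mono (h : ElData Om Ps eta) {k l : ℕ} (hk : 1 ≤ k) (hkl : k ≤ l) (x : X) :
    cut Om Ps k x ≤ cut Om Ps l x := by
  by_cases hx : x ∈ Om
  · rw [cut, cut, ext_mem hx, ext_mem hx]
    refine mul_le_mul_of_nonneg_left (th_mono ?_) (inv_nonneg.2 (th_nonneg _))
    have hk' : (0 : ℝ) < k := by exact_mod_cast hk
    have hkl' : (k : ℝ) ≤ l := by exact_mod_cast hkl
    have h1 : (2 / l : ℝ) ≤ 2 / k := div_le_div_of_nonneg_left (by norm_num) hk' hkl'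
    have h2 := mul_le_mul_of_nonpos_right h1 (h.nonpos x hx)
    linarith
  · rw [cut, cut, ext_notMem hx, ext_notMem hx]

omit [IsManifold 𝓘(ℂ, Cm n) ω X] [ChartedSpace (Cm n) X] in
/-- `cut k = 0` off `{Ps ≥ -k/2}` -/
lemma cut_eq_zero (hk : 1 ≤ k) {x : X} (hx : ¬(x ∈ Om ∧ -(k / 2 : ℝ) < Ps x)) :
    cut Om Ps k x = 0 := by
  by_cases hxO : x ∈ Om
  · rw [cut, ext_mem hxO]
    exact cutP_zero hk (by by_contra hcon; exact hx ⟨hxO, not_le.1 hcon⟩)
  · rw [cut, ext_notMem hxO]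

omit [ChartedSpace (Cm n) X] [IsManifold 𝓘(ℂ, Cm n) ω X] in
/-- `cut k → 1` on `Om` -/
lemma cut_tendsto {x : X} (hx : x ∈ Om) : Tendsto (fun k : ℕ => cut Om Ps k x) atTop (𝓝 1) := by
  have h1 : Tendsto (fun k : ℕ => (1 : ℝ) + (2 / k : ℝ) * Ps x) atTop (𝓝 (1 + 0 * Ps x)) :=
    tendsto_const_nhds.add ((tendsto_const_nhds.div_atTop tendsto_natCast_atTop_atTop).mul_const _)
  rw [zero_mul, add_zero] at h1
  have h2 : Tendsto (fun k : ℕ => (th 1)⁻¹ * th (1 + (2 / k : ℝ) * Ps x)) atTop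
      (𝓝 ((th 1)⁻¹ * th 1)) :=
    ((contDiff_th.continuous.tendsto 1).comp h1).const_mul _
  rw [inv_mul_cancel₀ th_one_pos.ne'] at h2
  refine h2.congr fun k => ?_
  rw [cut, ext_mem hx]
  rfl

omit [IsManifold 𝓘(ℂ, Cm n) ω X] in
lemma cut_tsupport_subset [T2Space X] (h : ElData Om Ps eta) (hk : 1 ≤ k) :
    tsupport (cut Om Ps k) ⊆ {x | x ∈ Om ∧ -(k / 2 : ℝ) ≤ Ps x} := by
  refine closure_minimal (fun x hx => ?_) (h.cpt (k / 2)).isClosed
  by_contra hcon
  exact hx (cut_eq_zero hk fun hh => hcon ⟨hh.1, hh.2.le⟩)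

omit [IsManifold 𝓘(ℂ, Cm n) ω X] in
/-- `cut k` has support in `Om` -/
lemma cut_tsupport [T2Space X] (h : ElData Om Ps eta) (hk : 1 ≤ k) :
    tsupport (cut Om Ps k) ⊆ Om := (cut_tsupport_subset h hk).trans fun _ hx => hx.1

omit [IsManifold 𝓘(ℂ, Cm n) ω X] in
/-- `i ddbar cut_k ≥ -(2C / (k th 1)) w` -/
lemma cut_lower [T2Space X] (h : ElData Om Ps eta) (hw : ∀ e x, At e x → (w e (e x)).PosDef)
    {C : ℝ} (hC : 0 ≤ C) (hb : Bd C w eta) (hk : 1 ≤ k) (hx : At e x) :
    ((((th 1)⁻¹ * (2 / k) * C : ℝ) : ℂ) • w e (e x) +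
      cHess (fun y => cut Om Ps k (e.symm y)) (e x)).PosSemidef := by
  have hk' : (0 : ℝ) < k := by exact_mod_cast hk
  have hth := th_one_pos
  have hd : deriv (fun t => (th 1)⁻¹ * pr 1 (2 / k) t) = fun t =>
      (th 1)⁻¹ * ((2 / k) * Real.smoothTransition (1 + (2 / k) * t)) := by
    funext t
    exact ((hasDerivAt_pr 1 (2 / k) t).const_mul _).deriv
  have hd2 : ∀ t, deriv (deriv (fun t => (th 1)⁻¹ * pr 1 (2 / k) t)) t =
      (th 1)⁻¹ * ((2 / k) ^ 2 * deriv Real.smoothTransition (1 + (2 / k) * t)) := by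
    intro t
    have h1 : (fun t => (th 1)⁻¹ * ((2 / k) * Real.smoothTransition (1 + (2 / k) * t))) =
        fun t => (th 1)⁻¹ * deriv (pr 1 (2 / k)) t := by rw [deriv_pr]
    rw [hd, h1, deriv_const_mul _ (by
      rw [deriv_pr]
      have h2 : HasDerivAt (fun t : ℝ => 1 + (2 / k : ℝ) * t) (2 / k) t := by
        simpa using ((hasDerivAt_id t).const_mul (2 / k : ℝ)).const_add 1
      exact (((hasDerivAt_S (1 + (2 / k) * t)).comp t h2).const_mul _).differentiableAt),
      deriv2_pr]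
  refine ext_lower (M := k / 2) (L := (th 1)⁻¹ * (2 / k)) h hw hC hb (cutP_smooth k)
    (fun t ht => cutP_zero hk ht) ?_ ?_ ?_ hx
  · intro t
    rw [hd]
    exact mul_nonneg (inv_nonneg.2 hth.le) (mul_nonneg (by positivity)
      (Real.smoothTransition.nonneg _))
  · intro t
    rw [hd2]
    exact mul_nonneg (inv_nonneg.2 hth.le) (mul_nonneg (by positivity) (deriv_S_nonneg _))
  · intro t
    rw [hd]
    refine mul_le_mul_of_nonneg_left ?_ (inv_nonneg.2 hth.le)
    calc (2 / k : ℝ) * Real.smoothTransition (1 + (2 / k) * t) ≤ (2 / k) * 1 :=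
          mul_le_mul_of_nonneg_left (Real.smoothTransition.le_one _) (by positivity)
      _ = 2 / k := mul_one _

end Vale.Agent.P299.H738.El
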