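import Vale.Agent.P299.H738.BochLin
import Vale.Agent.P299.H723.D2.Iface

/-!
# P299, package D2-BOCH: the Bochner inequality for `log u`, `Δ u = μ u`, `Ric ≥ 0`
-/

open scoped Manifold ContDiff ComplexOrder Topology ComplexConjugate
open TopologicalSpace (Opens)
open Complex Filter Set Matrix

set_option linter.unusedSectionVars false

noncomputable section

namespace Vale.Agent.P299.H738

open Vale.Agent.P272.K Vale.Agent.P272.K.AMP Vale.Agent.P272.K.P1 Vale.Agent.P299.D2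

variable {n : ℕ} {O : Opens (Cm n)} {g : Cm n → Matrix (Fin n) (Fin n) ℂ}

/-- a smooth real function as an element of `Sm O` -/
def rf (u : Cm n → ℝ) (hu : ∀ z ∈ O, ContDiffAt ℝ ∞ u z) : Sm O :=
  Sm.mk (fun y => ((u y : ℝ) : ℂ)) fun z hz => Vale.Agent.P272.K.ofReal_contDiffAt (hu z hz)

section
variable {u v : Cm n → ℝ} (hu : ∀ z ∈ O, ContDiffAt ℝ ∞ u z) (hv : ∀ z ∈ O, ContDiffAt ℝ ∞ v z)

lemma ev_rf (x : O) : Sm.ev x (rf u hu) = ((u x : ℝ) : ℂ) := by rw [rf, Sm.ev_mk]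

lemma rf_star : star (rf u hu) = rf u hu := by
  refine Sm.ev_ext fun x => ?_
  rw [map_star, ev_rf]
  exact Complex.conj_ofReal _

lemma ev_gv' (x : O) (i : Fin n) (a : Unit) :
    Sm.ev x (KMet.gv (Sm.W O) (rf u hu) i a) = dz i (fun y => ((u y : ℝ) : ℂ)) x := by
  simp only [KMet.gv, of_apply, Sm.W_d]
  rw [rf, Sm.ev_d_mk]

lemma ev_gv_star' (x : O) (i : Fin n) (a : Unit) :
    Sm.ev x ((KMet.gv (Sm.W O) (rf u hu))ᴴ a i) = dzb i (fun y => ((u y : ℝ) : ℂ)) x := by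
  rw [conjTranspose_apply]
  simp only [KMet.gv, of_apply]
  rw [← (Sm.W O).db_star, rf_star, Sm.W_db, rf, Sm.ev_db_mk]

lemma ev_hes' (x : O) (i j : Fin n) :
    Sm.ev x (KMet.hes (Sm.W O) (rf u hu) i j) = cHess u x i j := by
  simp only [KMet.hes, of_apply, Sm.W_d, Sm.W_db]
  rw [rf, Sm.ev_d_db_mk]
  rfl

variable (hg : Met O g) (hc : ∀ z ∈ O, ∀ i j l, dz l (fun y => g y i j) z = dz i (fun y => g y l j) z)

lemma ev_Gi' (x : O) (i j : Fin n) : Sm.ev x ((hg.kmet hc).Gi i j) = (g x)⁻¹ i j := by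
  have e1 : Sm.evM x (hg.kmet hc).Gi = (g x)⁻¹ := hg.evM_Mi x
  rw [← Sm.evM_apply, e1]

lemma ev_lap_tr (x : O) :
    Sm.ev x ((hg.kmet hc).lap (rf u hu)) = ((g x)⁻¹ * cHess u x).trace := by
  have e1 : Sm.evM x (hg.kmet hc).Gi = (g x)⁻¹ := hg.evM_Mi x
  rw [KMet.lap_eq, Sm.ev_trace, Sm.evM_mul, e1]
  congr 2
  ext i j
  rw [Sm.evM_apply, ev_hes']

lemma ev_real' {F : Sm O} (hF : star F = F) (x : O) :
    Sm.ev x F = (((Sm.ev x F).re : ℝ) : ℂ) := by
  have h : conj (Sm.ev x F) = Sm.ev x F := by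
    have := map_star (Sm.ev x) F
    rw [hF] at this
    exact this.symm
  exact (Complex.conj_eq_iff_re.1 h).symm

lemma ev_lap' (x : O) :
    Sm.ev x ((hg.kmet hc).lap (rf u hu)) = ((lapG g u x : ℝ) : ℂ) := by
  rw [ev_real' ((hg.kmet hc).lap_star (rf_star hu)) x, ev_lap_tr]
  rfl

lemma ev_pair' (x : O) :
    Sm.ev x (((KMet.gv (Sm.W O) (rf u hu))ᴴ * (hg.kmet hc).Gi *
      KMet.gv (Sm.W O) (rf v hv)) () ()) = ((g x)⁻¹ * ddG v u x).trace := by
  simp only [Matrix.mul_apply, map_sum, map_mul, ev_gv', ev_gv_star', ev_Gi', Matrix.trace,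
    Matrix.diag_apply, ddG, of_apply, Finset.sum_mul]
  rw [Finset.sum_comm]
  refine Finset.sum_congr rfl fun i _ => Finset.sum_congr rfl fun j _ => ?_
  ring

lemma nrm_star' :
    star ((hg.kmet hc).nrm (rf u hu) () ()) = (hg.kmet hc).nrm (rf u hu) () () := by
  have h : ((hg.kmet hc).nrm (rf u hu))ᴴ = (hg.kmet hc).nrm (rf u hu) := by
    rw [KMet.nrm, conjTranspose_mul, conjTranspose_mul, conjTranspose_conjTranspose,
      (hg.kmet hc).herm_inv, Matrix.mul_assoc]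
  have := congrFun (congrFun h ()) ()
  rwa [conjTranspose_apply] at this

lemma ev_nrm (x : O) :
    Sm.ev x ((hg.kmet hc).nrm (rf u hu) () ()) = ((gradG g u u x : ℝ) : ℂ) := by
  rw [ev_real' (nrm_star' hu hg hc) x, KMet.nrm, ev_pair' hu hu hg hc]
  rfl

include hu hg hc in
lemma gradG_smooth : ∀ z ∈ O, ContDiffAt ℝ ∞ (gradG g u u) z := by
  intro z hz
  have h1 : ContDiffAt ℝ ∞ (Sm.fn ((hg.kmet hc).nrm (rf u hu) () ())) z := Sm.fn_smooth _ hz
  have h2 : ContDiffAt ℝ ∞ (fun y => (Sm.fn ((hg.kmet hc).nrm (rf u hu) () ()) y).re) z :=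
    Complex.reCLM.contDiff.contDiffAt.comp z h1
  refine h2.congr_of_eventuallyEq ?_
  filter_upwards [O.isOpen.mem_nhds hz] with y hy
  have h3 := ev_nrm hu hg hc ⟨y, hy⟩
  rw [Sm.ev_apply] at h3
  simp only at h3
  rw [h3, Complex.ofReal_re]

lemma nrm_rf : (hg.kmet hc).nrm (rf u hu) () () = rf (gradG g u u) (gradG_smooth hu hg hc) :=
  Sm.ev_ext fun x => by rw [ev_nrm, ev_rf]

include hu in
lemma dz_conj' (x : O) (i : Fin n) :
    conj (dz i (fun y => ((u y : ℝ) : ℂ)) x) = dzb i (fun y => ((u y : ℝ) : ℂ)) x := by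
  have h := Vale.Agent.P272.K.dzb_cj (i := i)
    ((Vale.Agent.P272.K.ofReal_contDiffAt (hu x x.2)).differentiableAt (by simp))
  rw [← cj, ← h]
  congr 1
  funext y
  exact Complex.conj_ofReal _

include hu hv in
lemma ddG_conjTranspose (x : O) : (ddG u v x)ᴴ = ddG v u x := by
  ext i j
  rw [conjTranspose_apply]
  simp only [ddG, of_apply]
  rw [star_mul']
  have h1' : star (dz j (fun y => ((u y : ℝ) : ℂ)) (x : Cm n)) = _ := dz_conj' hu x j
  have h2' : star (dzb i (fun y => ((v y : ℝ) : ℂ)) (x : Cm n)) =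
      dz i (fun y => ((v y : ℝ) : ℂ)) (x : Cm n) := by
    rw [← dz_conj' hv x i]; exact star_star _
  rw [h1', h2', mul_comm]

include hu hv hg in
lemma gradG_comm (x : O) : gradG g u v x = gradG g v u x := by
  have h : star ((g x)⁻¹ * ddG u v x).trace = ((g x)⁻¹ * ddG v u x).trace := by
    rw [← Matrix.trace_conjTranspose, conjTranspose_mul, ddG_conjTranspose hu hv x,
      (hg.pos x x.2).inv.isHermitian.eq, Matrix.trace_mul_comm]
  rw [gradG, gradG, ← h]
  exact (Complex.conj_re _).symm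

include hu in
lemma ddG_self_posSemidef (x : O) : (ddG u u x).PosSemidef := by
  have h : ddG u u x = (Matrix.of fun (i : Fin n) (_ : Unit) =>
      dz i (fun y => ((u y : ℝ) : ℂ)) (x : Cm n)) * (Matrix.of fun (i : Fin n)
      (_ : Unit) => dz i (fun y => ((u y : ℝ) : ℂ)) (x : Cm n))ᴴ := by
    ext i j
    have h2 := dz_conj' hu x j
    simp only [ddG, of_apply, Matrix.mul_apply, Finset.univ_unique, Finset.sum_singleton,
      conjTranspose_apply]
    rw [← h2]; rfl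
  rw [h]
  exact Matrix.posSemidef_self_mul_conjTranspose _

include hu hg in
lemma gradG_nonneg (x : O) : 0 ≤ gradG g u u x := by
  have h := C2.trace_mul_nonneg (hg.pos x x.2).inv.posSemidef (ddG_self_posSemidef hu x)
  rw [Complex.le_def] at h
  exact h.1

/-- the matrix of second covariant derivatives -/
def Smat (x : O) : Matrix (Fin n) (Fin n) ℂ :=
  Matrix.of fun k i => Sm.ev x ((hg.kmet hc).scol (rf u hu) k i ())

lemma t1_eq (x : O) : Sm.ev x (∑ k, ∑ l, (hg.kmet hc).Gi l k *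
      (((hg.kmet hc).scol (rf u hu) l)ᴴ * (hg.kmet hc).Gi *
      (hg.kmet hc).scol (rf u hu) k) () ()) =
      ((g x)⁻¹ * (Smat hu hg hc x * ((g x)⁻¹)ᵀ * (Smat hu hg hc x)ᴴ)).trace := by
  simp only [Matrix.mul_apply, map_sum, map_mul, conjTranspose_apply, ev_Gi', Matrix.trace,
    Matrix.diag_apply, Finset.sum_mul, Finset.mul_sum, map_star, Matrix.transpose_apply, Smat,
    of_apply]
  rw [Finset.sum_comm]
  refine Finset.sum_congr rfl fun l _ => Finset.sum_congr rfl fun k _ => ?_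
  rw [Finset.sum_comm]
  refine Finset.sum_congr rfl fun j _ => Finset.sum_congr rfl fun i _ => ?_
  ring

lemma t3_nonneg (x : O) (hR : (-cHess (fun y => Real.log (g y).det.re) (x : Cm n)).PosSemidef) :
    0 ≤ (Sm.ev x (((KMet.gv (Sm.W O) (rf u hu))ᴴ * (hg.kmet hc).Gi *
      (hg.kmet hc).Ric * (hg.kmet hc).Gi * KMet.gv (Sm.W O) (rf u hu)) () ())).re := by
  have hgx : (g x).PosDef := hg.pos x x.2
  rw [(hg.kmet hc).ric_term (rf u hu)]
  have e1 : Sm.evM x (hg.kmet hc).Gi = (g x)⁻¹ := hg.evM_Mi x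
  have e2 : Sm.evM x (KMet.gv (Sm.W O) (rf u hu) *
        (KMet.gv (Sm.W O) (rf u hu))ᴴ) = ddG u u x := by
    ext i j
    rw [Sm.evM_apply]
    simp only [Matrix.mul_apply, Finset.univ_unique, Finset.sum_singleton, map_mul, ev_gv',
      ev_gv_star', ddG, of_apply]
  have e3 : Sm.evM x (hg.kmet hc).Ric = -cHess (fun y => Real.log (g y).det.re) x :=
    evM_Ric hg hc x
  rw [Sm.ev_trace, Sm.evM_mul, Sm.evM_mul, Sm.evM_mul, e1, e2, e3]
  have hP : ((g x)⁻¹ * ddG u u x * (g x)⁻¹).PosSemidef := by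
    have := (ddG_self_posSemidef hu x).mul_mul_conjTranspose_same (g x)⁻¹
    rwa [hgx.inv.isHermitian.eq] at this
  have h2 := C2.trace_mul_nonneg hP hR
  rw [Complex.le_def] at h2
  exact h2.1

/-- Bochner's formula at a point -/
lemma boch_loc (x : O) {w : Cm n → ℝ} (hw : ∀ z ∈ O, ContDiffAt ℝ ∞ w z)
    (hlap : ∀ z ∈ O, lapG g u z = w z) :
    lapG g (gradG g u u) x =
      ((g x)⁻¹ * (Smat hu hg hc x * ((g x)⁻¹)ᵀ * (Smat hu hg hc x)ᴴ)).trace.re
      + ((g x)⁻¹ * cHess u x * ((g x)⁻¹ * cHess u x)).trace.re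
      + (Sm.ev x (((KMet.gv (Sm.W O) (rf u hu))ᴴ * (hg.kmet hc).Gi *
      (hg.kmet hc).Ric * (hg.kmet hc).Gi * KMet.gv (Sm.W O) (rf u hu)) () ())).re
      + 2 * gradG g u w x := by
  have hl : (hg.kmet hc).lap (rf u hu) = rf w hw := Sm.ev_ext fun x => by
    rw [ev_lap', ev_rf, hlap x x.2]
  have key := (hg.kmet hc).bochner (rf_star hu)
  rw [hl, nrm_rf] at key
  have key2 := congrArg (Sm.ev x) key
  rw [ev_lap', map_add, map_add, map_add, map_add, t1_eq, ev_pair', ev_pair'] at key2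
  have key3 := congrArg Complex.re key2
  rw [Complex.ofReal_re, Complex.add_re, Complex.add_re, Complex.add_re, Complex.add_re] at key3
  have e2 : Sm.ev x ((hg.kmet hc).Gi * KMet.hes (Sm.W O) (rf u hu) *
      ((hg.kmet hc).Gi * KMet.hes (Sm.W O) (rf u hu))).trace =
      ((g x)⁻¹ * cHess u x * ((g x)⁻¹ * cHess u x)).trace := by
    have e1 : Sm.evM x (hg.kmet hc).Gi = (g x)⁻¹ := hg.evM_Mi x
    have e3 : Sm.evM x (KMet.hes (Sm.W O) (rf u hu)) = cHess u x := by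
      ext i j
      rw [Sm.evM_apply, ev_hes']
    rw [Sm.ev_trace, Sm.evM_mul, Sm.evM_mul, e1, e3]
  rw [e2] at key3
  have h4 : ((g x)⁻¹ * ddG u w x).trace.re = gradG g u w x := rfl
  have h5 : ((g x)⁻¹ * ddG w u x).trace.re = gradG g u w x := by
    rw [gradG_comm hu hw hg x]; rfl
  refine key3.trans ?_
  have h6 : ((g x)⁻¹ * ddG u w x).trace.re + ((g x)⁻¹ * ddG w u x).trace.re =
      2 * gradG g u w x := by linarith
  exact congrArg _ h6

end

lemma gradG_const_sub {u Q : Cm n → ℝ} {μ : ℝ} {z : Cm n} (hQ : ContDiffAt ℝ ∞ Q z) :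
    gradG g u (fun y => μ - Q y) z = -gradG g u Q z := by
  have h : ∀ j, dzb j (fun y => (((fun y => μ - Q y) y : ℝ) : ℂ)) z =
      -dzb j (fun y => ((Q y : ℝ) : ℂ)) z := by
    intro j
    have hQ' : DifferentiableAt ℝ (fun y => ((Q y : ℝ) : ℂ)) z :=
      (Vale.Agent.P272.K.ofReal_contDiffAt hQ).differentiableAt (by simp)
    have e : (fun y => (((fun y => μ - Q y) y : ℝ) : ℂ)) =
        fun y => (fun _ : Cm n => (μ : ℂ)) y - (fun y => ((Q y : ℝ) : ℂ)) y := by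
      funext y; push_cast; rfl
    rw [e, Vale.Agent.P272.K.dzb_sub (differentiableAt_const _) hQ',
      Vale.Agent.P272.K.dzb_const]
    ring
  have h2 : ddG u (fun y => μ - Q y) z = -ddG u Q z := by
    ext i j
    simp only [ddG, of_apply, Matrix.neg_apply]
    rw [h j]; ring
  rw [gradG, gradG, h2, Matrix.mul_neg, Matrix.trace_neg, Complex.neg_re]

/-- `Δ log u = Δu / u - |∂ log u|²` -/
lemma lapG_log {u : Cm n → ℝ} {z : Cm n} (hu : ContDiffAt ℝ ∞ u z) (h0 : 0 < u z) :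
    lapG g (fun y => Real.log (u y)) z =
      (u z)⁻¹ * lapG g u z - gradG g (fun y => Real.log (u y)) (fun y => Real.log (u y)) z := by
  have hu2 : ContDiffAt ℝ 2 u z := hu.of_le (WithTop.coe_le_coe.2 le_top)
  have hd : DifferentiableAt ℝ u z := hu2.differentiableAt (by norm_num)
  have e1 : ∀ i, dz i (fun y => ((Real.log (u y) : ℝ) : ℂ)) z =
      ((u z)⁻¹ : ℝ) * dz i (fun y => ((u y : ℝ) : ℂ)) z := fun i =>
    C2.dz_comp_real i (Real.hasDerivAt_log h0.ne') hd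
  have e2 : ∀ i, dzb i (fun y => ((Real.log (u y) : ℝ) : ℂ)) z =
      ((u z)⁻¹ : ℝ) * dzb i (fun y => ((u y : ℝ) : ℂ)) z := fun i =>
    C2.dzb_comp_real i (Real.hasDerivAt_log h0.ne') hd
  have h1 : cHess (fun y => Real.log (u y)) z = (((u z)⁻¹ : ℝ) : ℂ) • cHess u z -
      ddG (fun y => Real.log (u y)) (fun y => Real.log (u y)) z := by
    ext i j
    rw [C2.cHess_log hu2 h0 i j, Matrix.sub_apply, Matrix.smul_apply, smul_eq_mul]
    simp only [ddG, of_apply]
    rw [e1, e2]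
    push_cast
    ring
  rw [lapG, h1, Matrix.mul_sub, Matrix.trace_sub, Matrix.mul_smul, Matrix.trace_smul,
    Complex.sub_re, smul_eq_mul, Complex.re_ofReal_mul]
  rfl

/-- value of the covariant derivative -/
lemma Smat_apply {u : Cm n → ℝ} (hu : ∀ z ∈ O, ContDiffAt ℝ ∞ u z) (hg : Met O g)
    (hc : ∀ z ∈ O, ∀ i j l, dz l (fun y => g y i j) z = dz i (fun y => g y l j) z) (x : O)
    (k i : Fin n) :
    Smat hu hg hc x k i = dz k (fun y => dz i (fun x => ((u x : ℝ) : ℂ)) y) x -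
      ∑ a, ∑ b, dz k (fun y => g y i a) x * (g x)⁻¹ a b * dz b (fun x => ((u x : ℝ) : ℂ)) x := by
  simp only [Smat, of_apply, KMet.scol, Matrix.sub_apply, map_sub]
  congr 1
  · simp only [WAlg.D_apply, KMet.gv, of_apply, Sm.W_d]
    rw [rf, Sm.ev_d_d_mk]
  · rw [Matrix.mul_apply, map_sum, Finset.sum_comm]
    refine Finset.sum_congr rfl fun b _ => ?_
    rw [map_mul, ev_gv', KMet.Ga, Matrix.mul_apply, map_sum, Finset.sum_mul]
    refine Finset.sum_congr rfl fun a _ => ?_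
    rw [map_mul, ev_Gi']
    congr 2
    have : Sm.evM x ((Sm.W O).D k (hg.kmet hc).G) = C2.DM k g x := hg.evM_D x k
    rw [← Sm.evM_apply, this, C2.DM_apply]

theorem boch : BochnerStatement := by
  intro n g U hU hK hRic μ u hu hpos hlap v Q
  set O : Opens (Cm n) := ⟨U, hU⟩ with hO
  have hg : Met O g := ⟨hK.smooth, hK.posDef⟩
  have hc : ∀ z ∈ O, ∀ i j l, dz l (fun y => g y i j) z = dz i (fun y => g y l j) z :=
    fun z hz i j l => hK.closed z hz i j l
  have hv : ∀ z ∈ O, ContDiffAt ℝ ∞ v z := fun z hz => (hu z hz).log (hpos z hz).ne'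
  have hQ : ∀ z ∈ O, ContDiffAt ℝ ∞ Q z := gradG_smooth hv hg hc
  have hlv : ∀ z ∈ O, lapG g v z = μ - Q z := by
    intro z hz
    have h := lapG_log (g := g) (hu z hz) (hpos z hz)
    rw [hlap z hz, ← mul_assoc, mul_comm _ μ, mul_assoc, inv_mul_cancel₀ (hpos z hz).ne',
      mul_one] at h
    exact h
  have hw : ∀ z ∈ O, ContDiffAt ℝ ∞ (fun y => μ - Q y) z := fun z hz =>
    contDiffAt_const.sub (hQ z hz)
  have key : ∀ x : O, lapG g Q x + 2 * gradG g v Q x =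
      ((g x)⁻¹ * (Smat hv hg hc x * ((g x)⁻¹)ᵀ * (Smat hv hg hc x)ᴴ)).trace.re
      + ((g x)⁻¹ * cHess v x * ((g x)⁻¹ * cHess v x)).trace.re
      + (Sm.ev x (((KMet.gv (Sm.W O) (rf v hv))ᴴ * (hg.kmet hc).Gi *
      (hg.kmet hc).Ric * (hg.kmet hc).Gi * KMet.gv (Sm.W O) (rf v hv)) () ())).re := by
    intro x
    have h1 := boch_loc hv hg hc x hw hlv
    rw [gradG_const_sub (hQ x x.2)] at h1
    have h2 : lapG g Q x = lapG g (gradG g v v) x := rfl
    rw [h2, h1]; ring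
  have hH : ∀ x : O, (cHess v x).IsHermitian := fun x =>
    Vale.Agent.P272.K.cHess_isHermitian ((hv x x.2).of_le (WithTop.coe_le_coe.2 le_top))
  have hGp : ∀ x : O, ((g x)⁻¹).PosDef := fun x => (hg.pos x x.2).inv
  have t1 : ∀ x : O, 0 ≤ ((g x)⁻¹ * (Smat hv hg hc x * ((g x)⁻¹)ᵀ *
      (Smat hv hg hc x)ᴴ)).trace.re := fun x => trace_GS_nonneg (hGp x).posSemidef _
  have t3 : ∀ x : O, 0 ≤ (Sm.ev x (((KMet.gv (Sm.W O) (rf v hv))ᴴ * (hg.kmet hc).Gi *
      (hg.kmet hc).Ric * (hg.kmet hc).Gi * KMet.gv (Sm.W O) (rf v hv)) () ())).re := fun x =>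
    t3_nonneg hv hg hc x (hRic x x.2)
  have t2 : ∀ x : O, (lapG g v x) ^ 2 ≤ n * ((g x)⁻¹ * cHess v x *
      ((g x)⁻¹ * cHess v x)).trace.re := fun x => trace_sq_le (hGp x).posSemidef (hH x)
  refine ⟨hQ, fun z hz => gradG_nonneg hv hg ⟨z, hz⟩, hlv, fun z hz => ?_, fun hrig => ?_⟩
  · have h1 := key ⟨z, hz⟩
    have h2 := t1 ⟨z, hz⟩
    have h3 := t3 ⟨z, hz⟩
    have h4 := t2 ⟨z, hz⟩
    simp only at h1 h2 h3 h4
    rw [hlv z hz] at h4
    refine h4.trans (mul_le_mul_of_nonneg_left ?_ (Nat.cast_nonneg n))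
    linarith
  · have hz0 : ∀ z (hz : z ∈ O), lapG g Q z + 2 * gradG g v Q z = 0 := by
      intro z hz
      have hev : (fun y => ((Q y : ℝ) : ℂ)) =ᶠ[𝓝 z] fun _ => (μ : ℂ) := by
        filter_upwards [O.isOpen.mem_nhds hz] with y hy
        rw [hrig y hy]
      have h1 : cHess Q z = 0 := by
        ext i j
        rw [Vale.Agent.P272.K.cHess_apply, Vale.Agent.P272.K.dz_congr
          (Vale.Agent.P272.K.dzb_congr_ev hev)]
        have : dzb j (fun _ : Cm n => (μ : ℂ)) = fun _ => 0 := by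
          funext y; exact Vale.Agent.P272.K.dzb_const _
        rw [this, Vale.Agent.P272.K.dz_const]; rfl
      have h2 : ddG v Q z = 0 := by
        ext i j
        simp only [ddG, of_apply, Matrix.zero_apply]
        rw [Vale.Agent.P272.K.dzb_congr hev, Vale.Agent.P272.K.dzb_const, mul_zero]
      rw [lapG, gradG, h1, h2]
      simp
    have hboth : ∀ x : O, ((g x)⁻¹ * (Smat hv hg hc x * ((g x)⁻¹)ᵀ *
        (Smat hv hg hc x)ᴴ)).trace.re ≤ 0 ∧
        ((g x)⁻¹ * cHess v x * ((g x)⁻¹ * cHess v x)).trace.re ≤ 0 := by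
      intro x
      have h1 := key x
      rw [hz0 x x.2] at h1
      have h2 := t1 x
      have h3 := t3 x
      have h4 : 0 ≤ ((g x)⁻¹ * cHess v x * ((g x)⁻¹ * cHess v x)).trace.re := by
        have h5 := t2 x
        rcases Nat.eq_zero_or_pos n with hn | hn
        · subst hn
          simp [Matrix.trace]
        · have hn' : (0 : ℝ) < n := Nat.cast_pos.2 hn
          by_contra hlt
          push Not at hlt
          have := mul_neg_of_pos_of_neg hn' hlt
          nlinarith [sq_nonneg (lapG g v x)]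
      constructor <;> linarith
    refine ⟨fun z hz => eq_zero_of_tr (hGp ⟨z, hz⟩) (hH ⟨z, hz⟩) (hboth ⟨z, hz⟩).2,
      fun z hz i k => ?_⟩
    have h1 := eq_zero_of_GS (hGp ⟨z, hz⟩) (hboth ⟨z, hz⟩).1
    have h2 := congrFun (congrFun h1 k) i
    rw [Smat_apply] at h2
    exact sub_eq_zero.1 h2

end Vale.Agent.P299.H738
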