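import Vale.Agent.P299.H738.MaxBoch

/-!
# P299, D2: `BochStatement` (H760/Iface.lean) from `SMPStatement`
-/

open scoped Manifold ContDiff ComplexOrder Topology ComplexConjugate
open Complex Filter Set Matrix

set_option linter.unusedSectionVars false
set_option maxSynthPendingDepth 3

noncomputable section

namespace Vale.Agent.P299.H738

open Vale.Agent.P272.K Vale.Agent.P272.K.AMP Vale.Agent.P299.D2 Vale.Agent.P299.H760
  Vale.Agent.P299.D Vale.Agent.P299.H956 Vale.Agent.P278.H837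

section pull

variable {n : ℕ} {N X : Type*} [TopologicalSpace N] [TopologicalSpace X]
  [ChartedSpace (Cm n) N] [ChartedSpace (Cm n) X] [IsManifold 𝓘(ℂ, Cm n) ω N]
  [IsManifold 𝓘(ℂ, Cm n) ω X] {f : N → X} {w : FormM n X} {u v : X → ℝ} {y : N}
  {e : Chart n N} {e' : Chart n X}

lemma smooth_comp (hf : ContMDiffAt 𝓘(ℂ, Cm n) 𝓘(ℂ, Cm n) ω f y) (h : At e y) (h' : At e' (f y))
    {r : WithTop ℕ∞} (hu : ContDiffAt ℝ r (fun z => u (e'.symm z)) (e' (f y))) :
    ContDiffAt ℝ r (fun z => u (f (e.symm z))) (e y) := by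
  have hτ := rep_hol hf h h'
  have hy : e' (f (e.symm (e y))) = e' (f y) := by rw [h.left_inv]
  have h1 : ContDiffAt ℝ r (fun z => u (e'.symm (e' (f (e.symm z))))) (e y) := by
    refine ContDiffAt.comp (e y) (g := fun z => u (e'.symm z)) (f := fun z => e' (f (e.symm z)))
      (by rw [hy]; exact hu) ((hτ.restrict_scalars ℝ).of_le (by exact le_top))
  refine h1.congr_of_eventuallyEq ?_
  filter_upwards [nhds_at_map hf.continuousAt h h'] with z hz
  rw [hz.2.2.left_inv]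

/-- the Laplacian of a pull back, in charts -/
lemma lapE_pull (hw : IsHermitian w) (hf : ContMDiffAt 𝓘(ℂ, Cm n) 𝓘(ℂ, Cm n) ω f y)
    (hi : Immersive n n f) (h : At e y) (h' : At e' (f y))
    (hu : ContDiffAt ℝ 2 (fun z => u (e'.symm z)) (e' (f y))) :
    lapE (pullM f w) (fun x => u (f x)) e (e y) = lapE w u e' (e' (f y)) := by
  have hτ := rep_hol hf h h'
  have hy : e' (f (e.symm (e y))) = e' (f y) := by rw [h.left_inv]
  set J := jacF f e e' y with hJ
  have hJu : IsUnit J.det := isUnit_iff_ne_zero.2 (det_inj (hi e e' y h h'))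
  have h1 : cHess (fun z => u (f (e.symm z))) (e y) =
      J.transpose * cHess (fun z => u (e'.symm z)) (e' (f y)) * J.map (starRingEnd ℂ) := by
    have e1 : (fun z => u (f (e.symm z))) =ᶠ[𝓝 (e y)]
        fun z => u (e'.symm (e' (f (e.symm z)))) := by
      filter_upwards [nhds_at_map hf.continuousAt h h'] with z hz
      rw [hz.2.2.left_inv]
    rw [cHess_congr e1, cHess_compR (τ := fun z => e' (f (e.symm z)))
      (f := fun z => u (e'.symm z)) (by rw [hy]; exact hu) hτ, hy, hJ, jacF_eq]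
  rw [lapE, lapE, hess, hess, h1, pullM_eq hw.isForm hf h h', ← hJ, trace_form hJu]

/-- the gradient of a pull back, in charts -/
lemma gradE_pull (hw : IsHermitian w) (hf : ContMDiffAt 𝓘(ℂ, Cm n) 𝓘(ℂ, Cm n) ω f y)
    (hi : Immersive n n f) (h : At e y) (h' : At e' (f y))
    (hu : DifferentiableAt ℝ (fun z => u (e'.symm z)) (e' (f y)))
    (hv : DifferentiableAt ℝ (fun z => v (e'.symm z)) (e' (f y))) :
    gradE (pullM f w) (fun x => u (f x)) (fun x => v (f x)) e (e y) = gradE w u v e' (e' (f y)) := by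
  have hτ := rep_diff hf h h'
  have hy : e' (f (e.symm (e y))) = e' (f y) := by rw [h.left_inv]
  set J := jacF f e e' y with hJ
  have hJu : IsUnit J.det := isUnit_iff_ne_zero.2 (det_inj (hi e e' y h h'))
  have hev : ∀ u : X → ℝ, (fun z => ((u (f (e.symm z)) : ℝ) : ℂ)) =ᶠ[𝓝 (e y)]
      fun z => ((u (e'.symm (e' (f (e.symm z)))) : ℝ) : ℂ) := by
    intro u
    filter_upwards [nhds_at_map hf.continuousAt h h'] with z hz
    rw [hz.2.2.left_inv]
  have hC : ∀ {u : X → ℝ}, DifferentiableAt ℝ (fun z => u (e'.symm z)) (e' (f y)) →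
      DifferentiableAt ℝ (fun z => ((u (e'.symm z) : ℝ) : ℂ)) (e' (f (e.symm (e y)))) := by
    intro u hu
    rw [hy]
    exact Complex.ofRealCLM.differentiableAt.comp _ hu
  have h1 : dd (fun x => u (f x)) (fun x => v (f x)) e (e y) =
      J.transpose * dd u v e' (e' (f y)) * J.map (starRingEnd ℂ) := by
    ext i j
    simp only [dd, Matrix.of_apply]
    rw [dz_congr (hev u), dzb_congr (hev v),
      dz_compR (f := fun z => ((u (e'.symm z) : ℝ) : ℂ)) (τ := fun z => e' (f (e.symm z))) (hC hu) hτ,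
      dzb_compR (f := fun z => ((v (e'.symm z) : ℝ) : ℂ)) (τ := fun z => e' (f (e.symm z))) (hC hv) hτ]
    simp only [hy, Matrix.mul_apply, Matrix.transpose_apply, Matrix.map_apply, Matrix.of_apply,
      Finset.sum_mul, Finset.mul_sum, hJ, jacF_eq]
    refine Finset.sum_congr rfl fun p _ => Finset.sum_congr rfl fun q _ => ?_
    simp only [cj]
    ring
  rw [gradE, gradE, h1, pullM_eq hw.isForm hf h h', ← hJ, trace_form hJu]

end pull

section deck

variable {n : ℕ} {M X : Type*} [TopologicalSpace M] [TopologicalSpace X]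
  [ChartedSpace (Cm n) M] [ChartedSpace (Cm n) X] [IsManifold 𝓘(ℂ, Cm n) ω M]
  [IsManifold 𝓘(ℂ, Cm n) ω X] {π : M → X} {w : FormM n X}

/-- maps over a local biholomorphism are holomorphic -/
lemma contMDiff_of_over (hπ : IsLocalDiffeomorph 𝓘(ℂ, Cm n) 𝓘(ℂ, Cm n) ω π) {T : M → M}
    (hT : Continuous T) (h : ∀ m, π (T m) = π m) : ContMDiff 𝓘(ℂ, Cm n) 𝓘(ℂ, Cm n) ω T := by
  intro m
  obtain ⟨g, hgy, hg, hgf, -⟩ := exists_localInverse hπ (T m)
  rw [h m] at hg
  have h1 : ContMDiffAt 𝓘(ℂ, Cm n) 𝓘(ℂ, Cm n) ω (fun y => g (π y)) m :=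
    hg.comp m hπ.contMDiff.contMDiffAt
  refine h1.congr_of_eventuallyEq ?_
  filter_upwards [hT.continuousAt.eventually hgf] with y hy
  rw [← h y, hy]

lemma deck_holo (hπ : IsLocalDiffeomorph 𝓘(ℂ, Cm n) 𝓘(ℂ, Cm n) ω π) (γ : Deck π) :
    ContMDiff 𝓘(ℂ, Cm n) 𝓘(ℂ, Cm n) ω (γ : M ≃ₜ M) :=
  contMDiff_of_over hπ (γ : M ≃ₜ M).continuous γ.2

/-- deck transformations are isometries -/
lemma deck_iso (hπ : IsLocalDiffeomorph 𝓘(ℂ, Cm n) 𝓘(ℂ, Cm n) ω π) (hw : IsForm w) (γ : Deck π)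
    {e : Chart n M} {m : M} (h : At e m) :
    pullM (γ : M ≃ₜ M) (pullM π w : FormM n M) e (e m) = (pullM π w : FormM n M) e (e m) := by
  rw [pullM_comp hw (deck_holo hπ γ) hπ.contMDiff h]
  congr 1
  funext m
  exact γ.2 m

end deck

section bridge

variable {n : ℕ} {X : Type} [TopologicalSpace X] [ChartedSpace (Cm n) X]
  [IsManifold 𝓘(ℂ, Cm n) ω X] {w : FormM n X} {S : Split n X w} {P : PS n S.M (Deck S.π)}

lemma loc_eq (hC : Compat S P) (i : Fin P.N) (γ : Deck S.π) (f : S.M → ℝ) {e' : Chart n S.M}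
    (he : ∀ z, (P.e i).symm z = e'.symm z) :
    P.loc i γ f = fun z => f (((γ⁻¹ : Deck S.π) : S.M ≃ₜ S.M) (e'.symm z)) := by
  funext z
  rw [PS.loc, hC.act, he]

lemma deck_inv_apply (γ : Deck S.π) (m : S.M) :
    ((γ⁻¹ : Deck S.π) : S.M ≃ₜ S.M) ((γ : S.M ≃ₜ S.M) m) = m := by
  have h : (γ⁻¹ * γ : Deck S.π) = 1 := inv_mul_cancel γ
  have h2 := congrArg (fun g : Deck S.π => (g : S.M ≃ₜ S.M) m) h
  exact h2

/-- smoothness in the patches is smoothness -/
theorem smoothFn_of_Sm (hC : Compat S P) {f : S.M → ℝ} (hf : P.Sm f) : SmoothFn (n := n) f := by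
  intro e m h
  obtain ⟨i, γ, hs, -⟩ := P.cover m
  obtain ⟨e', he', hsub, hfun, hsymm, -⟩ := hC.atl i
  rw [hC.act] at hs
  have h' : At e' ((γ : S.M ≃ₜ S.M) m) := ⟨he', hsub hs⟩
  have ht : e' ((γ : S.M ≃ₜ S.M) m) ∈ (P.e i).target := by
    rw [← hfun]; exact (P.e i).map_source hs
  have h1 := hf i γ _ ht
  rw [loc_eq hC i γ f hsymm] at h1
  have h2 := smooth_comp (f := (γ : S.M ≃ₜ S.M))
    (u := fun x => f (((γ⁻¹ : Deck S.π) : S.M ≃ₜ S.M) x)) (deck_holo S.loc γ).contMDiffAt h h' h1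
  simp only [deck_inv_apply] at h2
  exact h2

theorem lapX_of_patch (hw : IsKahler w) (hC : Compat S P) {f : S.M → ℝ} (hf : P.Sm f)
    {i : Fin P.N} {γ : Deck S.π} {m : S.M} (hs : P.ac γ m ∈ (P.e i).source) :
    lapX (n := n) (pullM S.π w) f m = P.Lo i (P.loc i γ f) (P.e i (P.ac γ m)) := by
  have hsm := smoothFn_of_Sm hC hf
  have hW := isKahler_M hw S
  obtain ⟨e', he', hsub, hfun, hsymm, hg⟩ := hC.atl i
  rw [hC.act] at hs ⊢
  have h' : At e' ((γ : S.M ≃ₜ S.M) m) := ⟨he', hsub hs⟩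
  have ht : (P.e i) ((γ : S.M ≃ₜ S.M) m) ∈ (P.e i).target := (P.e i).map_source hs
  have h1 := hf i γ _ ht
  rw [PS.Lo, lop_opG (h1.of_le (by norm_cast))]
  rw [loc_eq hC i γ f hsymm, hfun] at h1 ⊢
  rw [hfun] at ht
  have h := AMP.at_chartAt (n := n) m
  have h2 := lapE_pull (f := (γ : S.M ≃ₜ S.M)) (w := pullM S.π w)
    (u := fun x => f (((γ⁻¹ : Deck S.π) : S.M ≃ₜ S.M) x)) hW.toIsHermitian
    (deck_holo S.loc γ).contMDiffAt (immersive_of_leftInverse (deck_holo S.loc γ)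
      (deck_holo S.loc γ⁻¹) (deck_inv_apply γ)) h h' (h1.of_le (by norm_cast))
  simp only [deck_inv_apply] at h2
  rw [lapX_eq hW.toIsHermitian hsm h]
  rw [lapG, hg _ ht]
  have h3 : lapE (pullM (γ : S.M ≃ₜ S.M) (pullM S.π w : FormM n S.M)) f
      (chartAt (Cm n) m) (chartAt (Cm n) m m) = lapE (pullM S.π w) f (chartAt (Cm n) m)
        (chartAt (Cm n) m m) := by
    rw [lapE, lapE, deck_iso S.loc hw.isForm γ h]
  rw [h3] at h2
  rw [h2]
  rfl

lemma gradG_log {g : Cm n → Matrix (Fin n) (Fin n) ℂ} {u : Cm n → ℝ} {z : Cm n}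
    (hu : DifferentiableAt ℝ u z) (h0 : u z ≠ 0) :
    gradG g (fun y => Real.log (u y)) (fun y => Real.log (u y)) z =
      opG (g z) ((fderiv ℝ u z).smulRight (fderiv ℝ u z)) / (u z) ^ 2 := by
  rw [← opG_smulRight, (hu.hasFDerivAt.log h0).fderiv]
  have : ((u z)⁻¹ • fderiv ℝ u z).smulRight ((u z)⁻¹ • fderiv ℝ u z) =
      ((u z)⁻¹ * (u z)⁻¹) • (fderiv ℝ u z).smulRight (fderiv ℝ u z) := by
    ext v
    simp only [ContinuousLinearMap.smulRight_apply, _root_.smul_apply, smul_eq_mul]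
    ring
  rw [this, map_smul, smul_eq_mul]
  field_simp

theorem gradX_of_patch (hw : IsKahler w) (hC : Compat S P) {f : S.M → ℝ} (hf : P.Sm f)
    (hpos : ∀ m, 0 < f m) {i : Fin P.N} {γ : Deck S.π} {m : S.M}
    (hs : P.ac γ m ∈ (P.e i).source) :
    gradX (n := n) (pullM S.π w) (fun x => Real.log (f x)) (fun x => Real.log (f x)) m =
      P.Q i γ f (P.e i (P.ac γ m)) := by
  have hsm := smoothFn_of_Sm hC hf
  have hlog : SmoothFn (n := n) (fun x => Real.log (f x)) := sm_log hsm hpos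
  have hW := isKahler_M hw S
  obtain ⟨e', he', hsub, hfun, hsymm, hg⟩ := hC.atl i
  rw [hC.act] at hs ⊢
  have h' : At e' ((γ : S.M ≃ₜ S.M) m) := ⟨he', hsub hs⟩
  have ht : (P.e i) ((γ : S.M ≃ₜ S.M) m) ∈ (P.e i).target := (P.e i).map_source hs
  have h1 := hf i γ _ ht
  have hd := h1.differentiableAt (by simp)
  have h0 : P.loc i γ f ((P.e i) ((γ : S.M ≃ₜ S.M) m)) ≠ 0 := (hpos _).ne'
  have hq := gradG_log (g := P.g i) hd h0
  rw [PS.Q, ← hq]
  have hdl : DifferentiableAt ℝ (fun z => Real.log (P.loc i γ f z)) ((P.e i) ((γ : S.M ≃ₜ S.M) m)) :=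
    hd.log h0
  have hl : (fun z => Real.log (P.loc i γ f z)) = fun z =>
      Real.log (f (((γ⁻¹ : Deck S.π) : S.M ≃ₜ S.M) (e'.symm z))) := by
    funext z; rw [loc_eq hC i γ f hsymm]
  rw [hl, hfun] at hdl ⊢
  rw [hfun] at ht
  have h := AMP.at_chartAt (n := n) m
  have h2 := gradE_pull (f := (γ : S.M ≃ₜ S.M)) (w := pullM S.π w)
    (u := fun x => Real.log (f (((γ⁻¹ : Deck S.π) : S.M ≃ₜ S.M) x)))
    (v := fun x => Real.log (f (((γ⁻¹ : Deck S.π) : S.M ≃ₜ S.M) x))) hW.toIsHermitian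
    (deck_holo S.loc γ).contMDiffAt (immersive_of_leftInverse (deck_holo S.loc γ)
      (deck_holo S.loc γ⁻¹) (deck_inv_apply γ)) h h' hdl hdl
  simp only [deck_inv_apply] at h2
  rw [gradX_eq hW.toIsHermitian hlog hlog h, gradG, hg _ ht]
  have h3 : gradE (pullM (γ : S.M ≃ₜ S.M) (pullM S.π w : FormM n S.M)) (fun x => Real.log (f x))
      (fun x => Real.log (f x)) (chartAt (Cm n) m) (chartAt (Cm n) m m) =
      gradE (pullM S.π w) (fun x => Real.log (f x)) (fun x => Real.log (f x)) (chartAt (Cm n) m)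
        (chartAt (Cm n) m m) := by
    rw [gradE, gradE, deck_iso S.loc hw.isForm γ h]
  rw [h3] at h2
  rw [h2]
  rfl

end bridge

/-- **BOCH** of H760/Iface.lean -/
theorem bochStatement (hSMP : SMPStatement) : BochStatement := by
  intro n X _ _ _ _ _ _ w hw hR S P hC l hl G hG hpos hsol hinv s hle hat
  refine no_max_solution hSMP hw hR S hl (smoothFn_of_Sm hC hG) hpos ?_ hinv (s := s) ?_ ?_
  · intro m
    obtain ⟨i, γ, hs, -⟩ := P.cover m
    rw [lapX_of_patch hw hC hG hs]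
    have h1 := hsol i γ _ ((P.e i).map_source hs)
    have h2 : P.loc i γ G (P.e i (P.ac γ m)) = G m := by
      rw [PS.loc, (P.e i).left_inv hs, ← P.ac_mul, inv_mul_cancel, P.ac_one]
    rw [h2] at h1
    have h3 : P.loc i γ (fun _ => (0 : ℝ)) (P.e i (P.ac γ m)) = 0 := rfl
    rw [h3] at h1
    linarith
  · intro m
    obtain ⟨i, γ, hs, hb⟩ := P.cover m
    rw [gradX_of_patch hw hC hG hpos hs]
    exact hle i γ _ hb
  · obtain ⟨i, γ, z, hz, hzs⟩ := hat
    have ht : z ∈ (P.e i).target := P.ball_sub i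
      (Metric.closedBall_subset_closedBall (by have := P.r_pos i; linarith) hz)
    refine ⟨P.ac γ⁻¹ ((P.e i).symm z), ?_⟩
    have h1 : P.ac γ (P.ac γ⁻¹ ((P.e i).symm z)) = (P.e i).symm z := by
      rw [← P.ac_mul, mul_inv_cancel, P.ac_one]
    rw [gradX_of_patch hw hC hG hpos (i := i) (γ := γ) (by rw [h1]; exact (P.e i).map_target ht), h1,
      (P.e i).right_inv ht]
    exact hzs

end Vale.Agent.P299.H738
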