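import Vale.Agent.P272.K.AMP.QH.Boch

/-!
# P299, package D2-BOCH: linear algebra
-/

open scoped ComplexOrder
open Complex Matrix

noncomputable section

namespace Vale.Agent.P299.H738

open Vale.Agent.P272.K

variable {n : ℕ}

lemma trace_mul_self_conj {M : Matrix (Fin n) (Fin n) ℂ} :
    (M * Mᴴ).trace.re = ∑ i, ∑ j, Complex.normSq (M i j) := by
  simp only [Matrix.trace, Matrix.diag_apply, Matrix.mul_apply, Matrix.conjTranspose_apply,
    Complex.re_sum]
  refine Finset.sum_congr rfl fun i _ => Finset.sum_congr rfl fun j _ => ?_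
  have : M i j * star (M i j) = ((Complex.normSq (M i j) : ℝ) : ℂ) := Complex.mul_conj _
  rw [this, Complex.ofReal_re]

lemma eq_zero_of_trace {M : Matrix (Fin n) (Fin n) ℂ} (h : (M * Mᴴ).trace.re = 0) : M = 0 := by
  rw [trace_mul_self_conj] at h
  ext i j
  have h1 := (Finset.sum_eq_zero_iff_of_nonneg fun i _ => Finset.sum_nonneg fun j _ =>
    Complex.normSq_nonneg (M i j)).1 h i (Finset.mem_univ i)
  have h2 := (Finset.sum_eq_zero_iff_of_nonneg fun j _ =>
    Complex.normSq_nonneg (M i j)).1 h1 j (Finset.mem_univ j)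
  simpa using h2

lemma det_ne_of_factor {G B : Matrix (Fin n) (Fin n) ℂ} (hG : G.PosDef) (hB : G = Bᴴ * B) :
    IsUnit B.det := by
  rw [isUnit_iff_ne_zero]
  intro h
  have := hG.det_pos
  rw [hB, Matrix.det_mul, h, mul_zero] at this
  exact lt_irrefl _ this

lemma trace_sq_le {G H : Matrix (Fin n) (Fin n) ℂ} (hG : G.PosSemidef) (hH : H.IsHermitian) :
    (G * H).trace.re ^ 2 ≤ n * (G * H * (G * H)).trace.re := by
  obtain ⟨B, rfl⟩ := C2.exists_factor hG
  set N := B * H * Bᴴ with hN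
  have hNh : Nᴴ = N := by
    rw [hN, conjTranspose_mul, conjTranspose_mul, conjTranspose_conjTranspose, hH.eq,
      Matrix.mul_assoc]
  have e1 : (Bᴴ * B * H).trace = N.trace := by
    rw [hN, Matrix.mul_assoc, Matrix.trace_mul_comm]
  have e2 : (Bᴴ * B * H * (Bᴴ * B * H)).trace = (N * Nᴴ).trace := by
    rw [hNh]
    calc (Bᴴ * B * H * (Bᴴ * B * H)).trace = (Bᴴ * (B * H * (Bᴴ * B * H))).trace := by
          simp only [Matrix.mul_assoc]
      _ = ((B * H * (Bᴴ * B * H)) * Bᴴ).trace := Matrix.trace_mul_comm _ _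
      _ = _ := by rw [hN]; simp only [Matrix.mul_assoc]
  rw [e1, e2, trace_mul_self_conj]
  have h1 : N.trace.re = ∑ i, (N i i).re := by
    simp only [Matrix.trace, Matrix.diag_apply, Complex.re_sum]
  rw [h1]
  have h2 : (∑ i, (N i i).re) ^ 2 ≤ (n : ℝ) * ∑ i, (N i i).re ^ 2 := by
    have := sq_sum_le_card_mul_sum_sq (s := (Finset.univ : Finset (Fin n)))
      (f := fun i => (N i i).re)
    simpa using this
  refine h2.trans (mul_le_mul_of_nonneg_left ?_ (Nat.cast_nonneg n))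
  refine Finset.sum_le_sum fun i _ => ?_
  have h3 : (N i i).re ^ 2 ≤ Complex.normSq (N i i) := by
    rw [Complex.normSq_apply]; nlinarith [mul_self_nonneg (N i i).im]
  exact h3.trans (Finset.single_le_sum (f := fun j => Complex.normSq (N i j))
    (fun j _ => Complex.normSq_nonneg _) (Finset.mem_univ i))

lemma eq_zero_of_tr {G H : Matrix (Fin n) (Fin n) ℂ} (hG : G.PosDef) (hH : H.IsHermitian)
    (h : (G * H * (G * H)).trace.re ≤ 0) : H = 0 := by
  obtain ⟨B, hB⟩ := C2.exists_factor hG.posSemidef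
  have hdet := det_ne_of_factor hG hB
  set N := B * H * Bᴴ with hN
  have hNh : Nᴴ = N := by
    rw [hN, conjTranspose_mul, conjTranspose_mul, conjTranspose_conjTranspose, hH.eq,
      Matrix.mul_assoc]
  have e2 : (G * H * (G * H)).trace = (N * Nᴴ).trace := by
    rw [hNh, hB]
    calc (Bᴴ * B * H * (Bᴴ * B * H)).trace = (Bᴴ * (B * H * (Bᴴ * B * H))).trace := by
          simp only [Matrix.mul_assoc]
      _ = ((B * H * (Bᴴ * B * H)) * Bᴴ).trace := Matrix.trace_mul_comm _ _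
      _ = _ := by rw [hN]; simp only [Matrix.mul_assoc]
  rw [e2] at h
  have h0 : 0 ≤ (N * Nᴴ).trace.re := by
    rw [trace_mul_self_conj]
    exact Finset.sum_nonneg fun i _ => Finset.sum_nonneg fun j _ => Complex.normSq_nonneg _
  have hN0 : N = 0 := eq_zero_of_trace (le_antisymm h h0)
  have hdet' : IsUnit (Bᴴ).det := by
    rw [Matrix.det_conjTranspose]; exact hdet.star
  have h1 : B⁻¹ * N * (Bᴴ)⁻¹ = H := by
    rw [hN]
    calc B⁻¹ * (B * H * Bᴴ) * (Bᴴ)⁻¹ = (B⁻¹ * B) * H * (Bᴴ * (Bᴴ)⁻¹) := by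
          simp only [Matrix.mul_assoc]
      _ = H := by rw [Matrix.nonsing_inv_mul _ hdet, Matrix.mul_nonsing_inv _ hdet',
          Matrix.one_mul, Matrix.mul_one]
  rw [← h1, hN0, Matrix.mul_zero, Matrix.zero_mul]

lemma trace_GS_nonneg {G : Matrix (Fin n) (Fin n) ℂ} (hG : G.PosSemidef)
    (S : Matrix (Fin n) (Fin n) ℂ) : 0 ≤ (G * (S * Gᵀ * Sᴴ)).trace.re := by
  have h2 : (S * Gᵀ * Sᴴ).PosSemidef := hG.transpose.mul_mul_conjTranspose_same S
  have h3 := C2.trace_mul_nonneg hG h2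
  rw [Complex.le_def] at h3
  simpa using h3.1

lemma eq_zero_of_GS {G S : Matrix (Fin n) (Fin n) ℂ} (hG : G.PosDef)
    (h : (G * (S * Gᵀ * Sᴴ)).trace.re ≤ 0) : S = 0 := by
  obtain ⟨B, hB⟩ := C2.exists_factor hG.posSemidef
  have hdet := det_ne_of_factor hG hB
  obtain ⟨C, hC⟩ := C2.exists_factor hG.posSemidef.transpose
  have hdetC : IsUnit C.det := det_ne_of_factor hG.transpose hC
  set N := B * S * Cᴴ with hN
  have e2 : (G * (S * Gᵀ * Sᴴ)).trace = (N * Nᴴ).trace := by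
    have hNh : Nᴴ = C * Sᴴ * Bᴴ := by
      rw [hN, conjTranspose_mul, conjTranspose_mul, conjTranspose_conjTranspose, Matrix.mul_assoc]
    rw [hNh, hC]
    conv_lhs => rw [hB]
    calc (Bᴴ * B * (S * (Cᴴ * C) * Sᴴ)).trace = (Bᴴ * (B * S * Cᴴ * (C * Sᴴ))).trace := by
          simp only [Matrix.mul_assoc]
      _ = ((B * S * Cᴴ * (C * Sᴴ)) * Bᴴ).trace := Matrix.trace_mul_comm _ _
      _ = _ := by rw [hN]; simp only [Matrix.mul_assoc]
  rw [e2] at h
  have h0 : 0 ≤ (N * Nᴴ).trace.re := by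
    rw [trace_mul_self_conj]
    exact Finset.sum_nonneg fun i _ => Finset.sum_nonneg fun j _ => Complex.normSq_nonneg _
  have hN0 : N = 0 := eq_zero_of_trace (le_antisymm h h0)
  have hdet' : IsUnit (Cᴴ).det := by
    rw [Matrix.det_conjTranspose]; exact hdetC.star
  have h1 : B⁻¹ * N * (Cᴴ)⁻¹ = S := by
    rw [hN]
    calc B⁻¹ * (B * S * Cᴴ) * (Cᴴ)⁻¹ = (B⁻¹ * B) * S * (Cᴴ * (Cᴴ)⁻¹) := by
          simp only [Matrix.mul_assoc]
      _ = S := by rw [Matrix.nonsing_inv_mul _ hdet, Matrix.mul_nonsing_inv _ hdet',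
          Matrix.one_mul, Matrix.mul_one]
  rw [← h1, hN0, Matrix.mul_zero, Matrix.zero_mul]

end Vale.Agent.P299.H738
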