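import Vale.Agent.P299.H738.ElMain

/-!
# El Mir by hand: the final statements
-/

open scoped Manifold ContDiff ComplexConjugate ComplexOrder Topology
open Matrix Set Filter
open Vale.Agent.P272.K
open Vale.Agent.P272.K.INT (intX IsDensity IsClosedForm)
open Vale.Agent.P272.K.AMP (IX lapX gradX trX hess)

set_option linter.all false

noncomputable section

namespace Vale.Agent.P299.H738.El

variable {n : ℕ} {X : Type*} [TopologicalSpace X] [ChartedSpace (Cm n) X]
  [IsManifold 𝓘(ℂ, Cm n) ω X]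
  {Om : Set X} {Ps : X → ℝ} {eta w g A Th : Chart n X → Cm n → Matrix (Fin n) (Fin n) ℂ}
  {u v : X → ℝ} {k : ℕ}

/-- the truncated form used with `cut k` -/
def Bk (eta : Chart n X → Cm n → Matrix (Fin n) (Fin n) ℂ) (Om : Set X) (Ps : X → ℝ) (k : ℕ) :
    Chart n X → Cm n → Matrix (Fin n) (Fin n) ℂ := betM eta Om Ps (k / 2 + 1)

lemma cut_or (h : ElData Om Ps eta) (hk : 1 ≤ k) {e : Chart n X} {x : X} (hx : At e x) :
    cut Om Ps k x = 0 ∨ (x ∈ Om ∧ Bk eta Om Ps k e (e x) = bet eta Ps e (e x)) := by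
  by_cases hc : x ∈ Om ∧ -(k / 2 : ℝ) < Ps x
  · right
    exact ⟨hc.1, betM_eq h hx hc.1 (by linarith [hc.2])⟩
  · left
    exact cut_eq_zero hk hc

omit [IsManifold 𝓘(ℂ, Cm n) ω X] in
lemma dens_congr {D D' : Chart n X → Cm n → ℝ} (h : ∀ e x, At e x → D e (e x) = D' e (e x))
    (hD : IsDensity D') : IsDensity D where
  cont e x hx := by
    refine (hD.cont e x hx).congr ?_
    filter_upwards [hx.nhds_target] with z hz
    have h1 := h e (e.symm z) (At.of_target hx.1 hz)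
    rw [e.right_inv hz] at h1
    exact h1.symm
  change e e' x hx hx' := by rw [h e x hx, h e' x hx', hD.change e e' x hx hx']

/-- the integrand `cut_k tr(g⁻¹ β) det g` -/
def qD (eta : Chart n X → Cm n → Matrix (Fin n) (Fin n) ℂ) (Om : Set X) (Ps : X → ℝ) (k : ℕ)
    (g : Chart n X → Cm n → Matrix (Fin n) (Fin n) ℂ) : Chart n X → Cm n → ℝ :=
  fun e z => cut Om Ps k (e.symm z) * (((g e z)⁻¹ * bet eta Ps e z).trace.re * (g e z).det.re)

lemma qD_eq (h : ElData Om Ps eta) (hk : 1 ≤ k) {e : Chart n X} {x : X} (hx : At e x) :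
    qD eta Om Ps k g e (e x) = cut Om Ps k (e.symm (e x)) *
      (((g e (e x))⁻¹ * Bk eta Om Ps k e (e x)).trace.re * (g e (e x)).det.re) := by
  unfold qD
  rw [e.left_inv hx.2]
  rcases cut_or h hk hx with h0 | ⟨_, h0⟩
  · rw [h0, zero_mul, zero_mul]
  · rw [h0]

section
variable [T2Space X] [CompactSpace X]

omit [CompactSpace X] in
lemma cont_cut (h : ElData Om Ps eta) (hk : 1 ≤ k) : Continuous (cut Om Ps k) :=
  INT.SmoothFn.continuous (cut_smooth h hk)

omit [CompactSpace X] in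
lemma Bk_cl (h : ElData Om Ps eta) (k : ℕ) : Cl11 (Bk eta Om Ps k) := betM_cl h _

lemma isDensity_qD (h : ElData Om Ps eta) (hg : IsHermitian g) (hk : 1 ≤ k) :
    IsDensity (qD eta Om Ps k g) := by
  have hB := Bk_cl h k
  have h1 : IsDensity (fun (e : Chart n X) z => cut Om Ps k (e.symm z) *
      (trX g (Bk eta Om Ps k) (e.symm z) * (g e z).det.re)) :=
    (AMP.isDensity_IX hg (INT.SmoothFn.continuous
      (AMP.smoothFn_trX hg hB.form hB.smooth))).smul (cont_cut h hk)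
  refine dens_congr (fun e x hx => ?_) h1
  rw [qD_eq h hk hx]
  show _ = cut Om Ps k (e.symm (e x)) * (trX g (Bk eta Om Ps k) (e.symm (e x)) *
    (g e (e x)).det.re)
  rw [e.left_inv hx.2, AMP.trX_eq hg hB.form hx]
  rfl

omit [CompactSpace X] [T2Space X] in
lemma qD_nonneg (h : ElData Om Ps eta) (hg : ∀ e x, At e x → (g e (e x)).PosDef)
    {e : Chart n X} {x : X} (hx : At e x) : 0 ≤ qD eta Om Ps k g e (e x) := by
  unfold qD
  rw [e.left_inv hx.2]
  by_cases hxO : x ∈ Om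
  · exact mul_nonneg (cut_nonneg x) (mul_nonneg (pt_trace_nonneg (hg e x hx) (h.pos e x hx hxO))
      (det_re_pos (hg e x hx)).le)
  · rw [cut, ext_notMem hxO, zero_mul]

/-- admissible `t` -/
lemma exists_t0 (hA : IsKahler A) (hw : IsKahler w) {C : ℝ} (hC : 0 < C) :
    ∃ t0 : ℝ, 0 < t0 ∧ ∀ t : ℝ, 0 ≤ t → t ≤ t0 → ∀ e x, At e x →
      ∀ B : Matrix (Fin n) (Fin n) ℂ, ((C : ℂ) • w e (e x) + B).PosSemidef →
      (A e (e x) + (t : ℂ) • B).PosDef := by
  obtain ⟨C', hC', H⟩ := QN.exists_comparison_form hA.toIsHermitian hw.smooth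
    (fun e x hx => (hw.posDef e x hx).isHermitian) (IsHermitian.isForm hw.toIsHermitian)
  refine ⟨1 / (2 * C * C'), by positivity, fun t ht0 ht1 e x hx B hB => ?_⟩
  have h1 : t * C * C' ≤ 1 / 2 := by
    calc t * C * C' = t * (C * C') := by ring
      _ ≤ 1 / (2 * C * C') * (C * C') := mul_le_mul_of_nonneg_right ht1 (by positivity)
      _ = 1 / 2 := by field_simp
  have e1 : A e (e x) + (t : ℂ) • B =
      ((1 - t * C * C' : ℝ) : ℂ) • A e (e x) +
        (((t * C : ℝ) : ℂ) • ((C' : ℂ) • A e (e x) - w e (e x)) +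
          (t : ℂ) • ((C : ℂ) • w e (e x) + B)) := by
    push_cast; module
  rw [e1]
  refine (posDef_smul (by linarith) (hA.posDef e x hx)).add_posSemidef ?_
  exact (posSemidef_smul (by positivity) (H e x hx)).add (posSemidef_smul ht0 hB)

lemma exists_abs_bound (hu : SmoothFn (n := n) u) : ∃ m : ℝ, 0 ≤ m ∧ ∀ x, |u x| ≤ m := by
  obtain ⟨C, hC⟩ := isCompact_univ.exists_bound_of_continuousOn
    (INT.SmoothFn.continuous hu).continuousOn
  exact ⟨max C 0, le_max_right _ _, fun x => (hC x (mem_univ x)).trans (le_max_left _ _)⟩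

/-- the total mass does not see the truncation -/
lemma mass_trunc (h : ElData Om Ps eta) {b : Chart n X → Cm n → Matrix (Fin n) (Fin n) ℂ}
    (hb : IsClosedForm b) (t : ℝ) (M : ℝ) :
    intX (fun e z => (b e z + (t : ℂ) • betM eta Om Ps M e z).det.re) =
      intX (fun e z => (b e z + (t : ℂ) • eta e z).det.re) := by
  have h1 := INT.intX_det_add_cHess (hb.add (h.cl.toIsClosedForm.smul (t : ℂ)))
    (AMP.sm_const_mul t (trn_smooth h M))
  rw [← h1]
  refine INT.intX_congr fun e x hx => ?_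
  rw [hess_smul t (trn_smooth h M) hx]
  show (b e (e x) + (t : ℂ) • (eta e (e x) + hess (trn Om Ps M) e (e x))).det.re = _
  congr 2
  module

/-- **the main comparison** -/
lemma diff_bound (h : ElData Om Ps eta) (hw : IsKahler w) (hA : IsKahler A)
    (hu : SmoothFn (n := n) u) (ha : ∀ e x, At e x → (A e (e x) + hess u e (e x)).PosDef) :
    ∃ t0 : ℝ, 0 < t0 ∧ ∀ t : ℝ, 0 ≤ t → t ≤ t0 → ∃ K : ℝ, ∀ k : ℕ, 1 ≤ k →
      |intX (fun (e : Chart n X) z => cut Om Ps k (e.symm z) *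
          (A e z + hess u e z + (t : ℂ) • Bk eta Om Ps k e z).det.re) -
        intX (fun (e : Chart n X) z => cut Om Ps k (e.symm z) *
          (A e z + (t : ℂ) • Bk eta Om Ps k e z).det.re)| ≤ K / Real.sqrt k := by
  obtain ⟨C, hC, hbd⟩ := exists_bd hw.toIsHermitian h.cl.smooth h.cl.herm h.cl.form
  have hAc := INT.IsKahler.isClosedForm hA
  have haK : IsKahler (fun e z => A e z + hess u e z) :=
    kahler_of_closed (hAc.add (INT.isClosedForm_cHess hu)) ha
  obtain ⟨t1, ht1, H1⟩ := exists_t0 hA hw hC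
  obtain ⟨t2, ht2, H2⟩ := exists_t0 haK hw hC
  obtain ⟨m, hm0, hm⟩ := exists_abs_bound hu
  have huc : Cl11 (fun e z => cHess (fun y => u (e.symm y)) z) :=
    { toIsClosedForm := INT.isClosedForm_cHess hu
      herm := fun e x hx => cHess_isHermitian ((hu e x hx).of_le (by norm_cast)) }
  obtain ⟨Cu, hCu, hbu⟩ := exists_bd hw.toIsHermitian huc.smooth huc.herm huc.form
  refine ⟨min t1 t2, lt_min ht1 ht2, fun t ht0 htle => ?_⟩
  refine ⟨(m * Cu + (th 1)⁻¹ * 2 * C) * intX (fun e z =>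
    (A e z + w e z + (t : ℂ) • eta e z).det.re), fun k hk => ?_⟩
  have hk' : (0 : ℝ) < k := by exact_mod_cast hk
  have hsq : 0 < Real.sqrt k := Real.sqrt_pos.2 hk'
  have hlow : ∀ e x, At e x → ((C : ℂ) • w e (e x) + Bk eta Om Ps k e (e x)).PosSemidef :=
    fun e x hx => betM_lower h hw.posDef hC.le hbd _ hx
  have hb0 : IsKahler (fun e z => A e z + (t : ℂ) • Bk eta Om Ps k e z) :=
    kahler_of_closed (hAc.add ((Bk_cl h k).toIsClosedForm.smul (t : ℂ))) fun e x hx =>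
      H1 t ht0 (htle.trans (min_le_left _ _)) e x hx _ (hlow e x hx)
  have hb1 : ∀ e x, At e x → (A e (e x) + (t : ℂ) • Bk eta Om Ps k e (e x) +
      hess u e (e x)).PosDef := by
    intro e x hx
    have := H2 t ht0 (htle.trans (min_le_right _ _)) e x hx _ (hlow e x hx)
    have e2 : A e (e x) + (t : ℂ) • Bk eta Om Ps k e (e x) + hess u e (e x) =
        A e (e x) + hess u e (e x) + (t : ℂ) • Bk eta Om Ps k e (e x) := by abel
    rw [e2]; exact this
  have hth := th_one_pos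
  have hst := step (w := w) (u := u) (v := cut Om Ps k) (m := m) (C := Cu)
    (c := (th 1)⁻¹ * (2 / k) * C) (ε := (Real.sqrt k)⁻¹) hb0 hw hu hb1 (cut_smooth h hk) hm hm0
    hCu.le hbu cut_nonneg (cut_le_one h) (by positivity)
    (fun e x hx => cut_lower h hw.posDef hC.le hbd hk hx) (inv_pos.2 hsq)
  have e1 : intX (fun (e : Chart n X) z => cut Om Ps k (e.symm z) *
      (A e z + (t : ℂ) • Bk eta Om Ps k e z + hess u e z).det.re) =
      intX (fun (e : Chart n X) z => cut Om Ps k (e.symm z) *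
        (A e z + hess u e z + (t : ℂ) • Bk eta Om Ps k e z).det.re) := by
    congr 1; funext e z
    congr 3
    abel
  rw [e1] at hst
  refine hst.trans (le_of_eq ?_)
  have e3 : intX (fun e z => (A e z + (t : ℂ) • Bk eta Om Ps k e z + w e z).det.re) =
      intX (fun e z => (A e z + w e z + (t : ℂ) • eta e z).det.re) := by
    rw [← mass_trunc h (hAc.add (INT.IsKahler.isClosedForm hw)) t (k / 2 + 1)]
    congr 1; funext e z
    congr 2
    show A e z + (t : ℂ) • betM eta Om Ps (k / 2 + 1) e z + w e z = _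
    abel
  rw [e3]
  have e4 : (Real.sqrt k)⁻¹ * (m * Cu) + (th 1)⁻¹ * (2 / k) * C / (Real.sqrt k)⁻¹ =
      (m * Cu + (th 1)⁻¹ * 2 * C) / Real.sqrt k := by
    have hs : (k : ℝ) = Real.sqrt k * Real.sqrt k := (Real.mul_self_sqrt hk'.le).symm
    have h2 : (2 / (k : ℝ)) = 2 / (Real.sqrt k * Real.sqrt k) := by rw [← hs]
    rw [h2]
    field_simp
  rw [e4]
  ring

/-- the linear coefficient from the values at the nodes -/
lemma deriv_formula {B : Chart n X → Cm n → Matrix (Fin n) (Fin n) ℂ} (hg : IsKahler g)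
    (hB : IsClosedForm B) (hv : Continuous v) (c : ℝ) :
    c * intX (fun (e : Chart n X) z => v (e.symm z) *
        (((g e z)⁻¹ * B e z).trace.re * (g e z).det.re)) =
      ∑ j : Fin (n + 1), deriv (INT.lag n j) 0 * intX (fun (e : Chart n X) z => v (e.symm z) *
        (g e z + ((c * j : ℝ) : ℂ) • B e z).det.re) := by
  have hgc := INT.IsKahler.isClosedForm hg
  have h1 : ∀ j : Fin (n + 1), deriv (INT.lag n j) 0 * intX (fun (e : Chart n X) z =>
      v (e.symm z) * (g e z + ((c * j : ℝ) : ℂ) • B e z).det.re) =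
      intX (fun (e : Chart n X) z => deriv (INT.lag n j) 0 * (v (e.symm z) *
        (g e z + ((c * j : ℝ) : ℂ) • B e z).det.re)) := fun j => (INT.intX_const_mul _ _).symm
  simp only [h1]
  have hd : ∀ j : Fin (n + 1), IsDensity (fun (e : Chart n X) z => deriv (INT.lag n j) 0 *
      (v (e.symm z) * (g e z + ((c * j : ℝ) : ℂ) • B e z).det.re)) := fun j =>
    ((hgc.add (hB.smul ((c * j : ℝ) : ℂ))).isDensity.smul hv).const_mul _
  rw [← INT.intX_sum _ fun j _ => hd j, ← INT.intX_const_mul]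
  refine INT.intX_congr fun e x hx => ?_
  have hp := INT.isPolyN_det (g e (e x)) ((c : ℂ) • B e (e x))
  have h2 := hp.deriv 0
  have h3 := (INT.hasDerivAt_det_line (g e (e x)) ((c : ℂ) • B e (e x)) 0).deriv
  rw [h3] at h2
  simp only [Complex.ofReal_zero, zero_smul, add_zero] at h2
  obtain ⟨d1, d2⟩ := INT.posDef_det_re (hg.posDef e x hx)
  rw [INT.sum_det_updateRow (isUnit_iff_ne_zero.2 fun h0 => by rw [h0] at d1; simp at d1),
    Complex.mul_re, d2, mul_zero, sub_zero, AMP.tr_smul] at h2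
  have h4 : ∀ j : Fin (n + 1), g e (e x) + ((j : ℝ) : ℂ) • (c : ℂ) • B e (e x) =
      g e (e x) + ((c * j : ℝ) : ℂ) • B e (e x) := by
    intro j
    rw [smul_smul]
    congr 2
    push_cast; ring
  calc c * (v (e.symm (e x)) * (((g e (e x))⁻¹ * B e (e x)).trace.re * (g e (e x)).det.re))
      = v (e.symm (e x)) * (c * ((g e (e x))⁻¹ * B e (e x)).trace.re * (g e (e x)).det.re) := by
        ring
    _ = v (e.symm (e x)) * ∑ j : Fin (n + 1), deriv (INT.lag n j) 0 *
        (g e (e x) + ((c * j : ℝ) : ℂ) • B e (e x)).det.re := by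
        rw [h2]
        congr 1
        exact Finset.sum_congr rfl fun j _ => by rw [← h4 j]
    _ = _ := by
        rw [Finset.mul_sum]
        exact Finset.sum_congr rfl fun j _ => by ring

lemma intX_qD (h : ElData Om Ps eta) (hk : 1 ≤ k) :
    intX (qD eta Om Ps k g) = intX (fun (e : Chart n X) z => cut Om Ps k (e.symm z) *
      (((g e z)⁻¹ * Bk eta Om Ps k e z).trace.re * (g e z).det.re)) :=
  INT.intX_congr fun e x hx => qD_eq h hk hx

/-- `|Q_k(a) - Q_k(A)| ≤ K / √k` -/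
lemma Q_diff (h : ElData Om Ps eta) (hw : IsKahler w) (hA : IsKahler A)
    (hu : SmoothFn (n := n) u) (ha : ∀ e x, At e x → (A e (e x) + hess u e (e x)).PosDef) :
    ∃ K : ℝ, ∀ k : ℕ, 1 ≤ k →
      |intX (qD eta Om Ps k (fun e z => A e z + hess u e z)) - intX (qD eta Om Ps k A)| ≤
        K / Real.sqrt k := by
  obtain ⟨t0, ht0, H⟩ := diff_bound h hw hA hu ha
  have haK : IsKahler (fun e z => A e z + hess u e z) :=
    kahler_of_closed ((INT.IsKahler.isClosedForm hA).add (INT.isClosedForm_cHess hu)) ha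
  set c : ℝ := t0 / (n + 1) with hc
  have hc0 : 0 < c := by positivity
  have hcj : ∀ j : Fin (n + 1), 0 ≤ c * (j : ℝ) ∧ c * (j : ℝ) ≤ t0 := by
    intro j
    refine ⟨by positivity, ?_⟩
    have h1 : (j : ℝ) ≤ n + 1 := by exact_mod_cast j.is_le.trans (Nat.le_succ n)
    calc c * (j : ℝ) ≤ c * (n + 1) := mul_le_mul_of_nonneg_left h1 hc0.le
      _ = t0 := by rw [hc]; field_simp
  choose K hK using fun j : Fin (n + 1) => H (c * j) (hcj j).1 (hcj j).2
  refine ⟨c⁻¹ * ∑ j : Fin (n + 1), |deriv (INT.lag n j) 0| * K j, fun k hk => ?_⟩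
  have hk' : (0 : ℝ) < k := by exact_mod_cast hk
  have hsq : 0 < Real.sqrt k := Real.sqrt_pos.2 hk'
  have hBc := (Bk_cl h k).toIsClosedForm
  have f1 := deriv_formula haK hBc (cont_cut h hk) c
  have f2 := deriv_formula hA hBc (cont_cut h hk) c
  rw [← intX_qD h hk] at f1 f2
  have f3 : c * (intX (qD eta Om Ps k (fun e z => A e z + hess u e z)) -
      intX (qD eta Om Ps k A)) = ∑ j : Fin (n + 1), deriv (INT.lag n j) 0 *
        (intX (fun (e : Chart n X) z => cut Om Ps k (e.symm z) *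
          (A e z + hess u e z + ((c * j : ℝ) : ℂ) • Bk eta Om Ps k e z).det.re) -
        intX (fun (e : Chart n X) z => cut Om Ps k (e.symm z) *
          (A e z + ((c * j : ℝ) : ℂ) • Bk eta Om Ps k e z).det.re)) := by
    rw [mul_sub, f1, f2, ← Finset.sum_sub_distrib]
    exact Finset.sum_congr rfl fun j _ => by ring
  have f4 : c * |intX (qD eta Om Ps k (fun e z => A e z + hess u e z)) -
      intX (qD eta Om Ps k A)| ≤ (∑ j : Fin (n + 1), |deriv (INT.lag n j) 0| * K j) /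
        Real.sqrt k := by
    have f5 : c * |intX (qD eta Om Ps k (fun e z => A e z + hess u e z)) -
        intX (qD eta Om Ps k A)| = |c * (intX (qD eta Om Ps k (fun e z => A e z + hess u e z)) -
        intX (qD eta Om Ps k A))| := by rw [abs_mul, abs_of_pos hc0]
    rw [f5, f3]
    refine (Finset.abs_sum_le_sum_abs _ _).trans ?_
    rw [Finset.sum_div]
    refine Finset.sum_le_sum fun j _ => ?_
    rw [abs_mul, mul_div_assoc]
    exact mul_le_mul_of_nonneg_left (hK j k hk) (abs_nonneg _)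
  rw [mul_div_assoc]
  calc |intX (qD eta Om Ps k (fun e z => A e z + hess u e z)) - intX (qD eta Om Ps k A)|
      = c⁻¹ * (c * |intX (qD eta Om Ps k (fun e z => A e z + hess u e z)) -
          intX (qD eta Om Ps k A)|) := by rw [← mul_assoc, inv_mul_cancel₀ hc0.ne', one_mul]
    _ ≤ _ := mul_le_mul_of_nonneg_left f4 (inv_nonneg.2 hc0.le)

/-- `Q_k(w)` is bounded -/
lemma Q_w_bound (h : ElData Om Ps eta) (hw : IsKahler w) :
    ∃ Qm : ℝ, 0 ≤ Qm ∧ ∀ k : ℕ, 1 ≤ k → intX (qD eta Om Ps k w) ≤ Qm := by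
  obtain ⟨C, hC, hbd⟩ := exists_bd hw.toIsHermitian h.cl.smooth h.cl.herm h.cl.form
  obtain ⟨t1, ht1, H1⟩ := exists_t0 hw hw hC
  have hwc := INT.IsKahler.isClosedForm hw
  refine ⟨|t1⁻¹ * intX (fun e z => (w e z + (t1 : ℂ) • eta e z).det.re)|, abs_nonneg _,
    fun k hk => le_trans ?_ (le_abs_self _)⟩
  have hlow : ∀ e x, At e x → ((C : ℂ) • w e (e x) + Bk eta Om Ps k e (e x)).PosSemidef :=
    fun e x hx => betM_lower h hw.posDef hC.le hbd _ hx
  have h1 : t1 * intX (qD eta Om Ps k w) ≤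
      intX (fun e z => (w e z + (t1 : ℂ) • eta e z).det.re) := by
    rw [← mass_trunc h hwc t1 (k / 2 + 1), ← INT.intX_const_mul]
    refine INT.intX_mono ((isDensity_qD h hw.toIsHermitian hk).const_mul t1)
      (hwc.add ((Bk_cl h k).toIsClosedForm.smul (t1 : ℂ))).isDensity fun e x hx => ?_
    show t1 * qD eta Om Ps k w e (e x) ≤ (w e (e x) + (t1 : ℂ) • Bk eta Om Ps k e (e x)).det.re
    have hpd := H1 t1 ht1.le le_rfl e x hx _ (hlow e x hx)
    unfold qD
    rw [e.left_inv hx.2]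
    rcases cut_or h hk hx with h0 | ⟨hxO, h0⟩
    · rw [h0, zero_mul, mul_zero]
      exact (det_re_pos hpd).le
    · rw [h0]
      have p1 := h.pos e x hx hxO
      have p2 := pt_trace_le (hw.posDef e x hx) (posSemidef_smul ht1.le p1)
      rw [AMP.tr_smul] at p2
      have p3 := pt_trace_nonneg (hw.posDef e x hx) p1
      have p4 := (det_re_pos (hw.posDef e x hx)).le
      have p5 := cut_le_one (Om := Om) (Ps := Ps) (k := k) h x
      have p6 : 0 ≤ t1 * ((w e (e x))⁻¹ * bet eta Ps e (e x)).trace.re * (w e (e x)).det.re :=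
        mul_nonneg (mul_nonneg ht1.le p3) p4
      calc t1 * (cut Om Ps k x * (((w e (e x))⁻¹ * bet eta Ps e (e x)).trace.re *
            (w e (e x)).det.re))
          = cut Om Ps k x * (t1 * ((w e (e x))⁻¹ * bet eta Ps e (e x)).trace.re *
            (w e (e x)).det.re) := by ring
        _ ≤ 1 * (t1 * ((w e (e x))⁻¹ * bet eta Ps e (e x)).trace.re * (w e (e x)).det.re) :=
            mul_le_mul_of_nonneg_right p5 p6
        _ ≤ _ := by rw [one_mul]; exact p2
  calc intX (qD eta Om Ps k w) = t1⁻¹ * (t1 * intX (qD eta Om Ps k w)) := by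
        rw [← mul_assoc, inv_mul_cancel₀ ht1.ne', one_mul]
    _ ≤ _ := mul_le_mul_of_nonneg_left h1 (inv_nonneg.2 ht1.le)

/-- the metric `Θ + δ w` -/
def Ad (Th w : Chart n X → Cm n → Matrix (Fin n) (Fin n) ℂ) (δ : ℝ) :
    Chart n X → Cm n → Matrix (Fin n) (Fin n) ℂ := fun e z => Th e z + (δ : ℂ) • w e z

omit [T2Space X] [CompactSpace X] in
lemma isKahler_Ad (hT : Cl11 Th) (hTp : ∀ e x, At e x → (Th e (e x)).PosSemidef)
    (hw : IsKahler w) {δ : ℝ} (hδ : 0 < δ) : IsKahler (Ad Th w δ) :=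
  kahler_of_closed (hT.toIsClosedForm.add ((INT.IsKahler.isClosedForm hw).smul (δ : ℂ)))
    fun e x hx => (posDef_smul hδ (hw.posDef e x hx)).posSemidef_add (hTp e x hx)

omit [T2Space X] [CompactSpace X] in
lemma contDiffAt_bet (h : ElData Om Ps eta) {e : Chart n X} {x : X} (hx : At e x) (hxO : x ∈ Om)
    (i j : Fin n) : ContDiffAt ℝ ∞ (fun z => bet eta Ps e z i j) (e x) :=
  (h.cl.smooth e x hx i j).add (contDiffAt_cHess (h.smooth e x hx hxO) (le_of_eq rfl) i j)

omit [T2Space X] [CompactSpace X] in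
/-- the pointwise inequality on `Om` follows from the one on a dense subset -/
lemma pt_upper_dense (hE : ElData Om Ps eta) (hw : IsKahler w) (hT : Cl11 Th)
    (hTp : ∀ e x, At e x → (Th e (e x)).PosSemidef) {ν : ℕ} {U : Set X} (hU : Om ⊆ closure (Om ∩ U))
    (hν : ∀ e x, At e x → x ∈ Om → x ∈ U → (Th e (e x)).rank ≤ ν)
    (hker : ∀ e x, At e x → x ∈ Om → x ∈ U → (Th e (e x)).rank = ν →
      ∀ v, Th e (e x) *ᵥ v = 0 → bet eta Ps e (e x) *ᵥ v = 0)
    {C0 δ : ℝ} (hC0 : 0 ≤ C0) (hδ : 0 < δ) (hδ1 : δ ≤ 1)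
    (hbd : ∀ e x, At e x → ((C0 : ℂ) • w e (e x) - Th e (e x)).PosSemidef)
    {e : Chart n X} {x : X} (hx : At e x) (hxO : x ∈ Om) :
    ((Ad Th w δ e (e x))⁻¹ * bet eta Ps e (e x)).trace.re * (Ad Th w δ e (e x)).det.re ≤
      (C0 + 1) ^ n * δ ^ (n - ν) * (((w e (e x))⁻¹ * bet eta Ps e (e x)).trace.re *
        (w e (e x)).det.re) := by
  have hA := isKahler_Ad hT hTp hw hδ
  set F : Cm n → ℝ := fun z => (C0 + 1) ^ n * δ ^ (n - ν) * (AMP.trE w (bet eta Ps) e z *
    (w e z).det.re) - AMP.trE (Ad Th w δ) (bet eta Ps) e z * (Ad Th w δ e z).det.re with hF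
  have hc : ContinuousAt F (e x) := by
    have c1 := (AMP.contDiffAt_trE hw.toIsHermitian (fun i j => contDiffAt_bet hE hx hxO i j)
      hx).continuousAt
    have c2 := (AMP.contDiffAt_trE hA.toIsHermitian (fun i j => contDiffAt_bet hE hx hxO i j)
      hx).continuousAt
    have c3 := (INT.IsKahler.isClosedForm hw).isDensity.cont e x hx
    have c4 := (INT.IsKahler.isClosedForm hA).isDensity.cont e x hx
    exact (continuousAt_const.mul (c1.mul c3)).sub (c2.mul c4)
  by_contra hcon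
  have hlt : F (e x) < 0 := by
    have := not_le.1 hcon
    show (C0 + 1) ^ n * δ ^ (n - ν) * (((w e (e x))⁻¹ * bet eta Ps e (e x)).trace.re *
      (w e (e x)).det.re) - ((Ad Th w δ e (e x))⁻¹ * bet eta Ps e (e x)).trace.re *
      (Ad Th w δ e (e x)).det.re < 0
    linarith
  have h1 : ∀ᶠ z in 𝓝 (e x), F z < 0 := hc.eventually (gt_mem_nhds hlt)
  have h2 : ∀ᶠ y in 𝓝 x, F (e y) < 0 := (e.continuousAt hx.2).eventually h1
  have h3 : ∀ᶠ y in 𝓝 x, F (e y) < 0 ∧ y ∈ e.source :=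
    h2.and (e.open_source.mem_nhds hx.2)
  obtain ⟨y, ⟨hy1, hy2⟩, hyO, hyU⟩ := mem_closure_iff_nhds.1 (hU hxO) _ h3
  have hy : At e y := ⟨hx.1, hy2⟩
  have := pt_upper (hw.posDef e y hy) (hTp e y hy) (hE.pos e y hy hyO) hC0 hδ hδ1
    (hbd e y hy) (hν e y hy hyO hyU) (hker e y hy hyO hyU)
  have h4 : 0 ≤ F (e y) := by
    show 0 ≤ (C0 + 1) ^ n * δ ^ (n - ν) * (((w e (e y))⁻¹ * bet eta Ps e (e y)).trace.re *
      (w e (e y)).det.re) - ((Ad Th w δ e (e y))⁻¹ * bet eta Ps e (e y)).trace.re *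
      (Ad Th w δ e (e y)).det.re
    exact sub_nonneg.2 this
  exact absurd hy1 (not_lt.2 h4)

/-- **El Mir by hand**: `∫_Ω tr_a(β) det a ≤ C δ^(n-ν)` for every Kähler form `a` cohomologous to
`Θ + δ w`; the rank conditions are needed only on a dense subset of `Ω`. -/
theorem elmir_dense (hE : ElData Om Ps eta) (hw : IsKahler w) (hT : Cl11 Th)
    (hTp : ∀ e x, At e x → (Th e (e x)).PosSemidef) {ν : ℕ} {U : Set X} (hU : Om ⊆ closure (Om ∩ U))
    (hν : ∀ e x, At e x → x ∈ Om → x ∈ U → (Th e (e x)).rank ≤ ν)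
    (hker : ∀ e x, At e x → x ∈ Om → x ∈ U → (Th e (e x)).rank = ν →
      ∀ v, Th e (e x) *ᵥ v = 0 → bet eta Ps e (e x) *ᵥ v = 0) :
    ∃ C : ℝ, 0 ≤ C ∧ ∀ δ : ℝ, 0 < δ → δ ≤ 1 → ∀ u : X → ℝ, SmoothFn (n := n) u →
      (∀ e x, At e x → (addH (Ad Th w δ) u e (e x)).PosDef) → ∀ k : ℕ, 1 ≤ k →
      intX (qD eta Om Ps k (addH (Ad Th w δ) u)) ≤ C * δ ^ (n - ν) := by
  obtain ⟨Qm, hQ0, hQ⟩ := Q_w_bound hE hw
  obtain ⟨C0, hC0, hbd⟩ := QN.exists_comparison_form hw.toIsHermitian hT.smooth hT.herm hT.form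
  refine ⟨(C0 + 1) ^ n * Qm, by positivity, fun δ hδ hδ1 u hu hpos k hk => ?_⟩
  have hA := isKahler_Ad hT hTp hw hδ
  have haK : IsKahler (addH (Ad Th w δ) u) :=
    kahler_of_closed ((INT.IsKahler.isClosedForm hA).add (INT.isClosedForm_cHess hu)) hpos
  obtain ⟨K, hK⟩ := Q_diff hE hw hA hu hpos
  -- `Q_l(A) ≤ C δ^(n-ν)`
  have hQA : ∀ l : ℕ, 1 ≤ l → intX (qD eta Om Ps l (Ad Th w δ)) ≤
      (C0 + 1) ^ n * Qm * δ ^ (n - ν) := by
    intro l hl
    have h1 : intX (qD eta Om Ps l (Ad Th w δ)) ≤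
        (C0 + 1) ^ n * δ ^ (n - ν) * intX (qD eta Om Ps l w) := by
      rw [← INT.intX_const_mul]
      refine INT.intX_mono (isDensity_qD hE hA.toIsHermitian hl)
        ((isDensity_qD hE hw.toIsHermitian hl).const_mul _) fun e x hx => ?_
      show qD eta Om Ps l (Ad Th w δ) e (e x) ≤
        (C0 + 1) ^ n * δ ^ (n - ν) * qD eta Om Ps l w e (e x)
      unfold qD
      rw [e.left_inv hx.2]
      by_cases hxO : x ∈ Om
      · have := pt_upper_dense hE hw hT hTp hU hν hker hC0.le hδ hδ1 hbd hx hxO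
        calc cut Om Ps l x * (((Ad Th w δ e (e x))⁻¹ * bet eta Ps e (e x)).trace.re *
              (Ad Th w δ e (e x)).det.re)
            ≤ cut Om Ps l x * ((C0 + 1) ^ n * δ ^ (n - ν) * (((w e (e x))⁻¹ *
              bet eta Ps e (e x)).trace.re * (w e (e x)).det.re)) :=
              mul_le_mul_of_nonneg_left this (cut_nonneg x)
          _ = _ := by ring
      · rw [cut, ext_notMem hxO, zero_mul, zero_mul, mul_zero]
    refine h1.trans ?_
    calc (C0 + 1) ^ n * δ ^ (n - ν) * intX (qD eta Om Ps l w)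
        ≤ (C0 + 1) ^ n * δ ^ (n - ν) * Qm := mul_le_mul_of_nonneg_left (hQ l hl) (by positivity)
      _ = _ := by ring
  -- monotonicity in `k` and the limit
  have hlim : ∀ l : ℕ, k ≤ l → intX (qD eta Om Ps k (addH (Ad Th w δ) u)) ≤
      (C0 + 1) ^ n * Qm * δ ^ (n - ν) + K / Real.sqrt l := by
    intro l hkl
    have hl : 1 ≤ l := hk.trans hkl
    have h1 : intX (qD eta Om Ps k (addH (Ad Th w δ) u)) ≤
        intX (qD eta Om Ps l (addH (Ad Th w δ) u)) := by
      refine INT.intX_mono (isDensity_qD hE haK.toIsHermitian hk)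
        (isDensity_qD hE haK.toIsHermitian hl) fun e x hx => ?_
      unfold qD
      rw [e.left_inv hx.2]
      by_cases hxO : x ∈ Om
      · exact mul_le_mul_of_nonneg_right (cut_mono hE hk hkl x) (mul_nonneg
          (pt_trace_nonneg (hpos e x hx) (hE.pos e x hx hxO)) (det_re_pos (hpos e x hx)).le)
      · rw [cut, cut, ext_notMem hxO, ext_notMem hxO, zero_mul]
    have h2 := hK l hl
    have h3 := (abs_le.1 h2).2
    have h4 := hQA l hl
    have h5 : intX (qD eta Om Ps l (addH (Ad Th w δ) u)) =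
        intX (qD eta Om Ps l (fun e z => Ad Th w δ e z + hess u e z)) := rfl
    rw [← h5] at h3
    linarith
  have ht : Tendsto (fun l : ℕ => (C0 + 1) ^ n * Qm * δ ^ (n - ν) + K / Real.sqrt l) atTop
      (𝓝 ((C0 + 1) ^ n * Qm * δ ^ (n - ν) + 0)) := by
    refine tendsto_const_nhds.add ?_
    have h1 : Tendsto (fun l : ℕ => Real.sqrt l) atTop atTop :=
      Real.tendsto_sqrt_atTop.comp tendsto_natCast_atTop_atTop
    exact tendsto_const_nhds.div_atTop h1
  rw [add_zero] at ht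
  refine ge_of_tendsto ht ?_
  filter_upwards [eventually_ge_atTop k] with l hl
  exact hlim l hl

/-- **El Mir by hand**: `∫_Ω tr_a(β) det a ≤ C δ^(n-ν)` for every Kähler form `a` cohomologous to
`Θ + δ w`. -/
theorem elmir (hE : ElData Om Ps eta) (hw : IsKahler w) (hT : Cl11 Th)
    (hTp : ∀ e x, At e x → (Th e (e x)).PosSemidef) {ν : ℕ}
    (hν : ∀ e x, At e x → x ∈ Om → (Th e (e x)).rank ≤ ν)
    (hker : ∀ e x, At e x → x ∈ Om → (Th e (e x)).rank = ν →
      ∀ v, Th e (e x) *ᵥ v = 0 → bet eta Ps e (e x) *ᵥ v = 0) :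
    ∃ C : ℝ, 0 ≤ C ∧ ∀ δ : ℝ, 0 < δ → δ ≤ 1 → ∀ u : X → ℝ, SmoothFn (n := n) u →
      (∀ e x, At e x → (addH (Ad Th w δ) u e (e x)).PosDef) → ∀ k : ℕ, 1 ≤ k →
      intX (qD eta Om Ps k (addH (Ad Th w δ) u)) ≤ C * δ ^ (n - ν) :=
  elmir_dense (U := univ) hE hw hT hTp (by rw [inter_univ]; exact subset_closure)
    (fun e x hx hxO _ => hν e x hx hxO) (fun e x hx hxO _ => hker e x hx hxO)

omit [T2Space X] [CompactSpace X] in
lemma rank_eq (hT : IsForm Th) {e e' : Chart n X} {x : X} (h : At e x) (h' : At e' x) :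
    (Th e (e x)).rank = (Th e' (e' x)).rank := by
  have h1 : IsUnit (jacM e e' x).transpose.det := by
    rw [det_transpose]; exact jacM_isUnit h h'
  have h2 : IsUnit ((jacM e e' x).map (starRingEnd ℂ)).det := by
    have : (jacM e e' x).map (starRingEnd ℂ) = ((starRingEnd ℂ).mapMatrix (jacM e e' x)) := rfl
    rw [this, ← RingHom.map_det]
    exact (jacM_isUnit h h').map _
  rw [hT e e' x h h', rank_mul_eq_left_of_isUnit_det _ _ h2,
    rank_mul_eq_right_of_isUnit_det _ _ h1]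

/-- **the lower bound for the masses**: `c δ^(n-ν) ≤ ∫ det (Θ + δ w)` if `Θ` has rank `ν`
somewhere -/
theorem mass_lower (hw : IsKahler w) (hT : Cl11 Th)
    (hTp : ∀ e x, At e x → (Th e (e x)).PosSemidef) {ν : ℕ} {e0 : Chart n X} {x0 : X}
    (h0 : At e0 x0) (hν : (Th e0 (e0 x0)).rank = ν) :
    ∃ c : ℝ, 0 < c ∧ ∀ δ : ℝ, 0 < δ →
      c * δ ^ (n - ν) ≤ intX (fun e z => (Ad Th w δ e z).det.re) := by
  have hwc := INT.IsKahler.isClosedForm hw
  have hAd : ∀ δ : ℝ, IsDensity (fun e z => (Ad Th w δ e z).det.re) := fun δ =>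
    (hT.toIsClosedForm.add (hwc.smul (δ : ℂ))).isDensity
  set D : Chart n X → Cm n → ℝ := fun e z =>
    ∑ j : Fin (n + 1), lamc n (n - ν) j * (Ad Th w (j : ℝ) e z).det.re with hD
  have hDd : IsDensity D := IsDensity.sum _ fun j _ => (hAd j).const_mul _
  have key : ∀ e x, At e x → ∃ p : Polynomial ℝ, p.natDegree ≤ n ∧ (∀ k, 0 ≤ p.coeff k) ∧
      (∀ δ : ℝ, (Ad Th w δ e (e x)).det.re = p.eval δ) ∧
      0 < p.coeff (n - (Th e (e x)).rank) ∧ D e (e x) = p.coeff (n - ν) := by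
    intro e x hx
    obtain ⟨p, h1, h2, h3, h4⟩ := exists_poly (hw.posDef e x hx) (hTp e x hx)
    refine ⟨p, h1, h2, h3, h4, ?_⟩
    rw [coeff_eq_lamc h1]
    refine Finset.sum_congr rfl fun j _ => ?_
    rw [← h3]
    rfl
  refine ⟨intX D, ?_, fun δ hδ => ?_⟩
  · refine H954.intX_pos_of_pos hDd (fun e x hx => ?_) (x := x0) fun e hx => ?_
    · obtain ⟨p, -, h2, -, -, h5⟩ := key e x hx
      rw [h5]; exact h2 _
    · obtain ⟨p, -, -, -, h4, h5⟩ := key e x0 hx
      rw [h5, ← hν, rank_eq hT.form h0 hx]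
      exact h4
  · rw [mul_comm, ← INT.intX_const_mul]
    refine INT.intX_mono (hDd.const_mul _) (hAd δ) fun e x hx => ?_
    obtain ⟨p, h1, h2, h3, -, h5⟩ := key e x hx
    show δ ^ (n - ν) * D e (e x) ≤ (Ad Th w δ e (e x)).det.re
    rw [h5, h3, Polynomial.eval_eq_sum_range' (Nat.lt_succ_of_le h1)]
    have : δ ^ (n - ν) * p.coeff (n - ν) = p.coeff (n - ν) * δ ^ (n - ν) := mul_comm _ _
    rw [this]
    exact Finset.single_le_sum (f := fun k => p.coeff k * δ ^ k)
      (fun k _ => mul_nonneg (h2 k) (by positivity))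
      (Finset.mem_range.2 (by omega))

end

end Vale.Agent.P299.H738.El
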