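import Vale.Agent.P299.H738.ElTrunc
import Vale.Agent.P272.K.AMP.Green2
import Vale.Agent.P299.H954.Zero

/-!
# El Mir by hand: the global estimates
-/

open scoped Manifold ContDiff ComplexConjugate ComplexOrder Topology
open Matrix Set Filter
open Vale.Agent.P272.K
open Vale.Agent.P272.K.INT (intX IsDensity IsClosedForm)
open Vale.Agent.P272.K.AMP (IX lapX gradX trX hess)

set_option linter.all false

noncomputable section

namespace Vale.Agent.P299.H738.El

variable {n : ℕ} {X : Type*} [TopologicalSpace X] [ChartedSpace (Cm n) X]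
  [IsManifold 𝓘(ℂ, Cm n) ω X]
  {Om : Set X} {Ps : X → ℝ} {eta w g A b0 : Chart n X → Cm n → Matrix (Fin n) (Fin n) ℂ}
  {u v : X → ℝ} {k : ℕ}

omit [IsManifold 𝓘(ℂ, Cm n) ω X] in
lemma kahler_of_closed {b : Chart n X → Cm n → Matrix (Fin n) (Fin n) ℂ} (hb : IsClosedForm b)
    (hp : ∀ e x, At e x → (b e (e x)).PosDef) : IsKahler b where
  smooth := hb.smooth
  posDef := hp
  change := hb.form
  closed e x h i j k := hb.closed e x h k i j

lemma IsKahler.cl11 (hg : IsKahler g) : Cl11 g where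
  toIsClosedForm := INT.IsKahler.isClosedForm hg
  herm e x hx := (hg.posDef e x hx).isHermitian

lemma Cl11.add {b c : Chart n X → Cm n → Matrix (Fin n) (Fin n) ℂ} (hb : Cl11 b) (hc : Cl11 c) :
    Cl11 (fun e z => b e z + c e z) where
  toIsClosedForm := hb.toIsClosedForm.add hc.toIsClosedForm
  herm e x hx := (hb.herm e x hx).add (hc.herm e x hx)

lemma Cl11.smul {b : Chart n X → Cm n → Matrix (Fin n) (Fin n) ℂ} (hb : Cl11 b) (c : ℝ) :
    Cl11 (fun e z => (c : ℂ) • b e z) where
  toIsClosedForm := hb.toIsClosedForm.smul (c : ℂ)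
  herm e x hx := by
    have := hb.herm e x hx
    show (((c : ℂ) • b e (e x))ᴴ) = _
    rw [conjTranspose_smul, this.eq]
    simp

section
variable [T2Space X] [CompactSpace X]

/-- `∫ tr_g w dv_g ≤ ∫ det (g + w)` -/
lemma tr_mass (hg : IsKahler g) (hw : IsKahler w) :
    IX g (trX g w) ≤ intX (fun e z => (g e z + w e z).det.re) := by
  have hgH := hg.toIsHermitian
  have hc := AMP.smoothFn_trX hgH (IsHermitian.isForm hw.toIsHermitian) hw.smooth
  refine INT.intX_mono (AMP.isDensity_IX hgH (INT.SmoothFn.continuous hc))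
    ((INT.IsKahler.isClosedForm hg).add (INT.IsKahler.isClosedForm hw)).isDensity
    fun e x hx => ?_
  show trX g w (e.symm (e x)) * (g e (e x)).det.re ≤ (g e (e x) + w e (e x)).det.re
  rw [e.left_inv hx.2, AMP.trX_eq hgH (IsHermitian.isForm hw.toIsHermitian) hx]
  exact pt_trace_le (hg.posDef e x hx) (hw.posDef e x hx).posSemidef

omit [CompactSpace X] [T2Space X] in
lemma trX_nonneg' (hg : IsKahler g) (hw : IsKahler w) (x : X) : 0 ≤ trX g w x :=
  pt_trace_nonneg (hg.posDef _ x (AMP.at_chartAt x)) (hw.posDef _ x (AMP.at_chartAt x)).posSemidef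

lemma cont_trX (hg : IsKahler g) (hw : IsKahler w) : Continuous (trX g w) :=
  INT.SmoothFn.continuous (AMP.smoothFn_trX hg.toIsHermitian
    (IsHermitian.isForm hw.toIsHermitian) hw.smooth)

lemma grad_u (hg : IsKahler g) (hw : IsKahler w) (hu : SmoothFn (n := n) u) {m C : ℝ}
    (hm : ∀ x, |u x| ≤ m) (hC : 0 ≤ C) (hb : Bd C w (hess u)) :
    IX g (gradX g u u) ≤ m * C * IX g (trX g w) := by
  have hgH := hg.toIsHermitian
  have h1 := AMP.IX_green_grad hg hu hu
  have h2 : IX g (gradX g u u) = IX g (fun x => -(u x * lapX g u x)) := by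
    rw [AMP.IX_neg, h1, neg_neg]
  rw [h2, ← AMP.IX_const_mul]
  have c1 := INT.SmoothFn.continuous (AMP.smoothFn_lapX hgH hu)
  refine AMP.IX_mono hgH ((INT.SmoothFn.continuous hu).mul c1).neg
    (continuous_const.mul (cont_trX hg hw)) fun x => ?_
  have h3 : |lapX g u x| ≤ C * trX g w x :=
    pt_abs_trace (hg.posDef _ x (AMP.at_chartAt x)) (hb _ x (AMP.at_chartAt x)).1
      (hb _ x (AMP.at_chartAt x)).2
  have h4 := trX_nonneg' hg hw x
  calc -(u x * lapX g u x) ≤ |u x * lapX g u x| := neg_le_abs _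
    _ = |u x| * |lapX g u x| := abs_mul _ _
    _ ≤ m * (C * trX g w x) := mul_le_mul (hm x) h3 (abs_nonneg _) ((abs_nonneg _).trans (hm x))
    _ = _ := by ring

lemma grad_v (hg : IsKahler g) (hw : IsKahler w) (hv : SmoothFn (n := n) v)
    (h0 : ∀ x, 0 ≤ v x) (h1 : ∀ x, v x ≤ 1) {c : ℝ} (hc : 0 ≤ c)
    (hl : ∀ e x, At e x → ((c : ℂ) • w e (e x) + hess v e (e x)).PosSemidef) :
    IX g (gradX g v v) ≤ c * IX g (trX g w) := by
  have hgH := hg.toIsHermitian
  have h2 : IX g (gradX g v v) = IX g (fun x => -(v x * lapX g v x)) := by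
    rw [AMP.IX_neg, AMP.IX_green_grad hg hv hv, neg_neg]
  rw [h2, ← AMP.IX_const_mul]
  have c1 := INT.SmoothFn.continuous (AMP.smoothFn_lapX hgH hv)
  refine AMP.IX_mono hgH ((INT.SmoothFn.continuous hv).mul c1).neg
    (continuous_const.mul (cont_trX hg hw)) fun x => ?_
  have h3 : -(c * trX g w x) ≤ lapX g v x :=
    pt_trace_lower (hg.posDef _ x (AMP.at_chartAt x)) (hl _ x (AMP.at_chartAt x))
  have h4 := mul_nonneg hc (trX_nonneg' hg hw x)
  have h5 := h0 x
  have h6 := h1 x
  nlinarith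

lemma lap_bound (hg : IsKahler g) (hw : IsKahler w) (hu : SmoothFn (n := n) u)
    (hv : SmoothFn (n := n) v) {m C c ε : ℝ}
    (hm : ∀ x, |u x| ≤ m) (hC : 0 ≤ C) (hb : Bd C w (hess u))
    (h0 : ∀ x, 0 ≤ v x) (h1 : ∀ x, v x ≤ 1) (hc : 0 ≤ c)
    (hl : ∀ e x, At e x → ((c : ℂ) • w e (e x) + hess v e (e x)).PosSemidef) (hε : 0 < ε) :
    |IX g (fun x => v x * lapX g u x)| ≤ (ε * (m * C) + c / ε) * IX g (trX g w) := by
  have hgH := hg.toIsHermitian
  have a1 := grad_u hg hw hu hm hC hb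
  have a2 := grad_v hg hw hv h0 h1 hc hl
  have cuv := INT.SmoothFn.continuous (AMP.smoothFn_gradX hgH hv hu)
  have cuu := INT.SmoothFn.continuous (AMP.smoothFn_gradX hgH hu hu)
  have cvv := INT.SmoothFn.continuous (AMP.smoothFn_gradX hgH hv hv)
  have e1 : IX g (fun x => ε * gradX g u u x + ε⁻¹ * gradX g v v x) =
      ε * IX g (gradX g u u) + ε⁻¹ * IX g (gradX g v v) := by
    rw [AMP.IX_add hgH (f := fun x => ε * gradX g u u x) (f' := fun x => ε⁻¹ * gradX g v v x)
      (continuous_const.mul cuu) (continuous_const.mul cvv), AMP.IX_const_mul, AMP.IX_const_mul]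
  have e2 : ε * IX g (gradX g u u) + ε⁻¹ * IX g (gradX g v v) ≤
      (ε * (m * C) + c / ε) * IX g (trX g w) := by
    have b1 := mul_le_mul_of_nonneg_left a1 hε.le
    have b2 := mul_le_mul_of_nonneg_left a2 (inv_nonneg.2 hε.le)
    have : (ε * (m * C) + c / ε) * IX g (trX g w) =
        ε * (m * C * IX g (trX g w)) + ε⁻¹ * (c * IX g (trX g w)) := by
      rw [div_eq_mul_inv]; ring
    rw [this]
    exact add_le_add b1 b2
  have key : ∀ x, |gradX g v u x| ≤ ε * gradX g u u x + ε⁻¹ * gradX g v v x := by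
    intro x
    have s1 := AMP.gradX_sq_le hgH.posDef hv hu x
    have s2 := AMP.gradX_self_nonneg hgH.posDef u x
    have s3 := AMP.gradX_self_nonneg hgH.posDef v x
    apply abs_le_of_sq_le_sq
    · have : gradX g v v x * gradX g u u x =
          (ε * gradX g u u x) * (ε⁻¹ * gradX g v v x) := by field_simp
      rw [this] at s1
      have t1 : 0 ≤ ε * gradX g u u x := mul_nonneg hε.le s2
      have t2 : 0 ≤ ε⁻¹ * gradX g v v x := mul_nonneg (inv_nonneg.2 hε.le) s3
      nlinarith
    · have t1 : 0 ≤ ε * gradX g u u x := mul_nonneg hε.le s2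
      have t2 : 0 ≤ ε⁻¹ * gradX g v v x := mul_nonneg (inv_nonneg.2 hε.le) s3
      linarith
  rw [AMP.IX_green_grad hg hv hu, abs_neg, abs_le]
  have hcR : Continuous fun x => ε * gradX g u u x + ε⁻¹ * gradX g v v x :=
    (continuous_const.mul cuu).add (continuous_const.mul cvv)
  constructor
  · have := AMP.IX_mono hgH (f := fun x => -gradX g v u x) cuv.neg hcR
      (fun x => (neg_le_abs _).trans (key x))
    rw [AMP.IX_neg, e1] at this
    linarith
  · have := AMP.IX_mono hgH cuv hcR (fun x => (le_abs_self _).trans (key x))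
    rw [e1] at this
    linarith

omit [T2Space X] [CompactSpace X] in
lemma isPolyN_const_mul {m : ℕ} {f : ℝ → ℝ} (c : ℝ) (hf : INT.IsPolyN m f) :
    INT.IsPolyN m fun t => c * f t := by
  obtain ⟨a, ha⟩ := hf
  refine ⟨fun k => c * a k, fun t => ?_⟩
  show c * f t = _
  rw [ha, Finset.mul_sum]
  exact Finset.sum_congr rfl fun k _ => by ring

omit [T2Space X] [CompactSpace X] [IsManifold 𝓘(ℂ, Cm n) ω X] in
lemma hess_smul (c : ℝ) (hu : SmoothFn (n := n) u) {e : Chart n X} {x : X} (hx : At e x) :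
    cHess (fun y => c * u (e.symm y)) (e x) = (c : ℂ) • hess u e (e x) :=
  cHess_const_mul c ((hu e x hx).of_le (by norm_cast))

/-- the basic step: `∫ v det (b + i ddbar u) - ∫ v det b` -/
lemma step (hb0 : IsKahler b0) (hw : IsKahler w) (hu : SmoothFn (n := n) u)
    (hb1 : ∀ e x, At e x → (b0 e (e x) + hess u e (e x)).PosDef)
    (hv : SmoothFn (n := n) v) {m C c ε : ℝ}
    (hm : ∀ x, |u x| ≤ m) (hm0 : 0 ≤ m) (hC : 0 ≤ C) (hb : Bd C w (hess u))
    (h0 : ∀ x, 0 ≤ v x) (h1 : ∀ x, v x ≤ 1) (hc : 0 ≤ c)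
    (hl : ∀ e x, At e x → ((c : ℂ) • w e (e x) + hess v e (e x)).PosSemidef) (hε : 0 < ε) :
    |intX (fun e z => v (e.symm z) * (b0 e z + hess u e z).det.re) -
      intX (fun e z => v (e.symm z) * (b0 e z).det.re)| ≤
      (ε * (m * C) + c / ε) * intX (fun e z => (b0 e z + w e z).det.re) := by
  set F : ℝ → ℝ := fun s =>
    intX (fun (e : Chart n X) z => v (e.symm z) * (b0 e z + (s : ℂ) • hess u e z).det.re) with hF
  have hbc := INT.IsKahler.isClosedForm hb0
  have hcl : ∀ s : ℝ, IsClosedForm (fun e z => b0 e z + (s : ℂ) • hess u e z) := fun s =>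
    hbc.add ((INT.isClosedForm_cHess hu).smul (s : ℂ))
  have hK : ∀ s ∈ Icc (0 : ℝ) 1, IsKahler (fun e z => b0 e z + (s : ℂ) • hess u e z) := by
    intro s hs
    refine kahler_of_closed (hcl s) fun e x hx => ?_
    have e1 : b0 e (e x) + (s : ℂ) • hess u e (e x) =
        ((1 - s : ℝ) : ℂ) • b0 e (e x) + (s : ℂ) • (b0 e (e x) + hess u e (e x)) := by
      push_cast; module
    rw [e1]
    rcases hs.1.eq_or_lt with h | h
    · rw [← h]; simpa using hb0.posDef e x hx
    · exact (posDef_smul h (hb1 e x hx)).posSemidef_add (posSemidef_smul (by linarith [hs.2])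
        (hb0.posDef e x hx).posSemidef)
  have hcv := INT.SmoothFn.continuous hv
  have hd : ∀ s ∈ Icc (0 : ℝ) 1, HasDerivAt F
      (IX (fun e z => b0 e z + (s : ℂ) • hess u e z) (fun x => v x *
        lapX (fun e z => b0 e z + (s : ℂ) • hess u e z) u x)) s := by
    intro s hs
    have h2 := INT.hasDerivAt_intX (m := n)
      (D := fun s (e : Chart n X) z => v (e.symm z) * (b0 e z + (s : ℂ) • hess u e z).det.re)
      (fun s => (hcl s).isDensity.smul hcv)
      (fun e x _ => isPolyN_const_mul _ (INT.isPolyN_det _ _)) s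
    convert h2 using 1
    unfold IX
    refine INT.intX_congr fun e x hx => ?_
    show v (e.symm (e x)) * lapX _ u (e.symm (e x)) * (b0 e (e x) + (s : ℂ) • hess u e (e x)).det.re
      = deriv (fun s : ℝ => v (e.symm (e x)) * (b0 e (e x) + (s : ℂ) • hess u e (e x)).det.re) s
    have h3 := INT.hasDerivAt_det_line (b0 e (e x)) (hess u e (e x)) s
    rw [deriv_const_mul _ h3.differentiableAt, h3.deriv]
    have hpd := (hK s hs).posDef e x hx
    obtain ⟨d1, d2⟩ := INT.posDef_det_re hpd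
    rw [INT.sum_det_updateRow (isUnit_iff_ne_zero.2 fun h0 => by rw [h0] at d1; simp at d1),
      Complex.mul_re, d2, mul_zero, sub_zero, e.left_inv hx.2,
      AMP.lapX_eq (hK s hs).toIsHermitian hu hx]
    show _ * AMP.lapE _ u e (e x) * _ = _
    unfold AMP.lapE
    ring
  have hbd : ∀ s ∈ Icc (0 : ℝ) 1, ‖IX (fun e z => b0 e z + (s : ℂ) • hess u e z) (fun x => v x *
        lapX (fun e z => b0 e z + (s : ℂ) • hess u e z) u x)‖ ≤
      (ε * (m * C) + c / ε) * intX (fun e z => (b0 e z + w e z).det.re) := by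
    intro s hs
    rw [Real.norm_eq_abs]
    refine (lap_bound (hK s hs) hw hu hv hm hC hb h0 h1 hc hl hε).trans ?_
    refine mul_le_mul_of_nonneg_left ((tr_mass (hK s hs) hw).trans (le_of_eq ?_)) (by positivity)
    have h2 := INT.intX_det_add_cHess (hbc.add (INT.IsKahler.isClosedForm hw))
      (AMP.sm_const_mul s hu)
    rw [← h2]
    refine INT.intX_congr fun e x hx => ?_
    rw [hess_smul s hu hx]
    congr 2
    abel
  have hfin := norm_image_sub_le_of_norm_deriv_le_segment_01'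
    (f := F) (C := (ε * (m * C) + c / ε) * intX (fun e z => (b0 e z + w e z).det.re))
    (fun s hs => (hd s hs).hasDerivWithinAt) (fun s hs => hbd s ⟨hs.1, hs.2.le⟩)
  rw [Real.norm_eq_abs] at hfin
  have f1 : F 1 = intX (fun e z => v (e.symm z) * (b0 e z + hess u e z).det.re) := by
    simp only [hF, Complex.ofReal_one, one_smul]
  have f0 : F 0 = intX (fun e z => v (e.symm z) * (b0 e z).det.re) := by
    simp only [hF, Complex.ofReal_zero, zero_smul, add_zero]
  rw [f1, f0] at hfin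
  exact hfin

end

end Vale.Agent.P299.H738.El
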