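import Vale.Agent.P272.K.QN.H327.Frame
import Vale.Agent.P272.K.INT.Gronwall
import Vale.Agent.P272.K.AMP.Calc

/-!
# El Mir by hand: pointwise linear algebra
-/

open scoped ComplexConjugate ComplexOrder
open Matrix
open Vale.Agent.P272.K

set_option linter.all false

noncomputable section

namespace Vale.Agent.P299.H738.El

variable {n : ℕ}

/-- real diagonal matrix -/
abbrev rdiag (d : Fin n → ℝ) : Matrix (Fin n) (Fin n) ℂ :=
  Matrix.diagonal (fun k => ((d k : ℝ) : ℂ))

lemma det_frame (T : Matrix (Fin n) (Fin n) ℂ) (d : Fin n → ℝ) :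
    (T * rdiag d * Tᴴ).det = ((‖T.det‖ ^ 2 * ∏ k, d k : ℝ) : ℂ) := by
  rw [det_mul, det_mul, det_conjTranspose, det_diagonal]
  have h : T.det * star T.det = ((‖T.det‖ ^ 2 : ℝ) : ℂ) := by
    rw [Complex.star_def, Complex.mul_conj, Complex.normSq_eq_norm_sq]
  calc T.det * (∏ k, ((d k : ℝ) : ℂ)) * star T.det
      = (T.det * star T.det) * ∏ k, ((d k : ℝ) : ℂ) := by ring
    _ = _ := by rw [h]; push_cast; rfl

lemma det_frame_re (T : Matrix (Fin n) (Fin n) ℂ) (d : Fin n → ℝ) :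
    (T * rdiag d * Tᴴ).det.re = ‖T.det‖ ^ 2 * ∏ k, d k := by
  rw [det_frame, Complex.ofReal_re]

lemma det_ne {T U : Matrix (Fin n) (Fin n) ℂ} (hTU : T * U = 1) : T.det ≠ 0 := by
  intro h
  have := congrArg Matrix.det hTU
  rw [det_mul, h, zero_mul, det_one] at this
  exact zero_ne_one this

lemma inv_frame {T U : Matrix (Fin n) (Fin n) ℂ} (hUT : U * T = 1) (hTU : T * U = 1)
    (d : Fin n → ℝ) (hd : ∀ k, d k ≠ 0) :
    (T * rdiag d * Tᴴ)⁻¹ = Uᴴ * rdiag (fun k => (d k)⁻¹) * U := by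
  apply Matrix.inv_eq_right_inv
  have h1 : Tᴴ * Uᴴ = 1 := by rw [← conjTranspose_mul, hUT, conjTranspose_one]
  have h2 : rdiag d * rdiag (fun k => (d k)⁻¹) = 1 := by
    rw [diagonal_mul_diagonal, ← diagonal_one]
    congr 1
    funext k
    have : ((d k : ℝ) : ℂ) ≠ 0 := by exact_mod_cast hd k
    push_cast
    exact mul_inv_cancel₀ this
  calc T * rdiag d * Tᴴ * (Uᴴ * rdiag (fun k => (d k)⁻¹) * U)
      = T * rdiag d * (Tᴴ * Uᴴ) * rdiag (fun k => (d k)⁻¹) * U := by noncomm_ring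
    _ = T * (rdiag d * rdiag (fun k => (d k)⁻¹)) * U := by rw [h1]; noncomm_ring
    _ = 1 := by rw [h2]; simp [hTU]

lemma trace_frame (U β : Matrix (Fin n) (Fin n) ℂ) (d : Fin n → ℝ) :
    (Uᴴ * rdiag d * U * β).trace.re = ∑ i, d i * ((U * β * Uᴴ) i i).re := by
  have h : (Uᴴ * rdiag d * U * β).trace = (rdiag d * (U * β * Uᴴ)).trace := by
    rw [Matrix.mul_assoc Uᴴ, Matrix.mul_assoc Uᴴ, Matrix.trace_mul_comm]
    congr 1
    noncomm_ring
  rw [h, Matrix.trace, Complex.re_sum]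
  refine Finset.sum_congr rfl fun i _ => ?_
  rw [Matrix.diag_apply, diagonal_mul, Complex.re_ofReal_mul]

lemma prod_mul_inv (d : Fin n → ℝ) (hd : ∀ k, d k ≠ 0) (i : Fin n) :
    (d i)⁻¹ * ∏ k, d k = ∏ k ∈ Finset.univ.erase i, d k := by
  rw [← Finset.mul_prod_erase Finset.univ d (Finset.mem_univ i), ← mul_assoc,
    inv_mul_cancel₀ (hd i), one_mul]

lemma tr_det_frame {T U : Matrix (Fin n) (Fin n) ℂ} (β : Matrix (Fin n) (Fin n) ℂ)
    (hUT : U * T = 1) (hTU : T * U = 1) (d : Fin n → ℝ) (hd : ∀ k, d k ≠ 0) :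
    ((T * rdiag d * Tᴴ)⁻¹ * β).trace.re * (T * rdiag d * Tᴴ).det.re =
      ‖T.det‖ ^ 2 * ∑ i, ((U * β * Uᴴ) i i).re * ∏ k ∈ Finset.univ.erase i, d k := by
  rw [inv_frame hUT hTU d hd, det_frame_re, trace_frame, Finset.sum_mul, Finset.mul_sum]
  refine Finset.sum_congr rfl fun i _ => ?_
  rw [← prod_mul_inv d hd i]
  ring

lemma entry_nonneg {β : Matrix (Fin n) (Fin n) ℂ} (hβ : β.PosSemidef)
    (U : Matrix (Fin n) (Fin n) ℂ) (i : Fin n) : 0 ≤ ((U * β * Uᴴ) i i).re := by
  have h := hβ.mul_mul_conjTranspose_same U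
  exact (Complex.le_def.1 h.diag_nonneg).1

/-- `tr(g⁻¹h) det g ≤ det (g + h)` -/
theorem pt_trace_le {g h : Matrix (Fin n) (Fin n) ℂ} (hg : g.PosDef) (hh : h.PosSemidef) :
    (g⁻¹ * h).trace.re * g.det.re ≤ (g + h).det.re := by
  obtain ⟨T, U, η, hη, hUT, hTU, rfl, rfl⟩ := QN.H327.exists_frame hg hh
  have e1 : T * Tᴴ = T * rdiag (fun _ => 1) * Tᴴ := by simp [rdiag]
  have e2 : T * Tᴴ + T * rdiag η * Tᴴ = T * rdiag (fun k => 1 + η k) * Tᴴ := by
    have : rdiag (fun k => 1 + η k) = 1 + rdiag η := by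
      rw [← diagonal_one, rdiag, rdiag, diagonal_add]
      congr 1; funext k; push_cast; rfl
    rw [this, Matrix.mul_add, Matrix.add_mul, Matrix.mul_one]
  have e3 : ∀ i, ((U * (T * rdiag η * Tᴴ) * Uᴴ) i i).re = η i := by
    intro i
    have h1 : Tᴴ * Uᴴ = 1 := by rw [← conjTranspose_mul, hUT, conjTranspose_one]
    have : U * (T * rdiag η * Tᴴ) * Uᴴ = rdiag η := by
      calc U * (T * rdiag η * Tᴴ) * Uᴴ = (U * T) * rdiag η * (Tᴴ * Uᴴ) := by noncomm_ring
        _ = _ := by rw [hUT, h1]; simp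
    rw [this, show rdiag η i i = ((η i : ℝ) : ℂ) from diagonal_apply_eq _ _, Complex.ofReal_re]
  have key : ((T * Tᴴ)⁻¹ * (T * rdiag η * Tᴴ)).trace.re * (T * Tᴴ).det.re =
      ‖T.det‖ ^ 2 * ∑ i, η i := by
    conv_lhs => rw [e1]
    rw [tr_det_frame (T * rdiag η * Tᴴ) hUT hTU (fun _ => 1) (fun _ => one_ne_zero)]
    simp only [e3, Finset.prod_const_one, mul_one]
  rw [key]
  show _ ≤ (T * Tᴴ + T * rdiag η * Tᴴ).det.re
  rw [e2, det_frame_re]
  refine mul_le_mul_of_nonneg_left ?_ (by positivity)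
  have : ∀ s : Finset (Fin n), ∑ i ∈ s, η i + 1 ≤ ∏ i ∈ s, (1 + η i) := by
    intro s
    induction s using Finset.induction_on with
    | empty => simp
    | insert a s ha ih =>
      rw [Finset.sum_insert ha, Finset.prod_insert ha]
      have h1 := hη a
      have h2 : 0 ≤ ∑ i ∈ s, η i := Finset.sum_nonneg fun i _ => hη i
      nlinarith
  have := this Finset.univ
  linarith

lemma smul_real (c : ℝ) (M : Matrix (Fin n) (Fin n) ℂ) : ((c : ℂ) • M) = c • M := by
  ext i j; simp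

lemma posSemidef_smul {c : ℝ} (hc : 0 ≤ c) {M : Matrix (Fin n) (Fin n) ℂ} (hM : M.PosSemidef) :
    ((c : ℂ) • M).PosSemidef := by
  rw [smul_real]; exact hM.smul hc

lemma posDef_smul {c : ℝ} (hc : 0 < c) {M : Matrix (Fin n) (Fin n) ℂ} (hM : M.PosDef) :
    ((c : ℂ) • M).PosDef := by
  rw [smul_real]; exact hM.smul hc

/-- `|tr(g⁻¹H)| ≤ C tr(g⁻¹w)` if `-C w ≤ H ≤ C w` -/
theorem pt_abs_trace {g w H : Matrix (Fin n) (Fin n) ℂ} (hg : g.PosDef) {C : ℝ}
    (h1 : ((C : ℂ) • w - H).PosSemidef) (h2 : ((C : ℂ) • w + H).PosSemidef) :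
    |(g⁻¹ * H).trace.re| ≤ C * (g⁻¹ * w).trace.re := by
  have e1 := (Complex.le_def.1 (C2.trace_mul_nonneg hg.inv.posSemidef h1)).1
  have e2 := (Complex.le_def.1 (C2.trace_mul_nonneg hg.inv.posSemidef h2)).1
  rw [AMP.tr_sub, AMP.tr_smul] at e1
  rw [AMP.tr_add, AMP.tr_smul] at e2
  rw [abs_le]
  simp only [Complex.zero_re] at e1 e2
  constructor <;> linarith

/-- `-C tr(g⁻¹w) ≤ tr(g⁻¹H)` if `-C w ≤ H` -/
theorem pt_trace_lower {g w H : Matrix (Fin n) (Fin n) ℂ} (hg : g.PosDef) {C : ℝ}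
    (h2 : ((C : ℂ) • w + H).PosSemidef) :
    -(C * (g⁻¹ * w).trace.re) ≤ (g⁻¹ * H).trace.re := by
  have e2 := (Complex.le_def.1 (C2.trace_mul_nonneg hg.inv.posSemidef h2)).1
  rw [AMP.tr_add, AMP.tr_smul] at e2
  simp only [Complex.zero_re] at e2
  linarith

lemma pt_trace_nonneg {g w : Matrix (Fin n) (Fin n) ℂ} (hg : g.PosDef) (hw : w.PosSemidef) :
    0 ≤ (g⁻¹ * w).trace.re :=
  (Complex.le_def.1 (C2.trace_mul_nonneg hg.inv.posSemidef hw)).1

lemma det_re_pos {g : Matrix (Fin n) (Fin n) ℂ} (hg : g.PosDef) : 0 < g.det.re :=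
  (Complex.lt_def.1 hg.det_pos).1

/-! ### rank and the number of zeros -/

lemma rank_frame {T U : Matrix (Fin n) (Fin n) ℂ} (hTU : T * U = 1) (d : Fin n → ℝ) :
    (T * rdiag d * Tᴴ).rank = (Finset.univ.filter fun k => d k ≠ 0).card := by
  have hT : IsUnit T.det := isUnit_iff_ne_zero.2 (det_ne hTU)
  have hT' : IsUnit Tᴴ.det := by
    rw [det_conjTranspose]
    exact isUnit_iff_ne_zero.2 (star_ne_zero.2 (det_ne hTU))
  rw [rank_mul_eq_left_of_isUnit_det _ _ hT', rank_mul_eq_right_of_isUnit_det _ _ hT,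
    rank_diagonal, Fintype.card_subtype]
  congr 1
  ext k
  simp

/-- the frame for `w` and `Θ` -/
lemma frame_add {T : Matrix (Fin n) (Fin n) ℂ} (θ : Fin n → ℝ) (δ : ℝ) :
    T * rdiag θ * Tᴴ + (δ : ℂ) • (T * Tᴴ) = T * rdiag (fun k => θ k + δ) * Tᴴ := by
  have : rdiag (fun k => θ k + δ) = rdiag θ + (δ : ℂ) • 1 := by
    ext i j
    simp only [rdiag, diagonal_apply, Matrix.add_apply, Matrix.smul_apply, Matrix.one_apply,
      smul_eq_mul]
    split_ifs <;> push_cast <;> simp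
  rw [this, Matrix.mul_add, Matrix.add_mul, Matrix.mul_smul, Matrix.smul_mul, Matrix.mul_one]

/-- **(P1)** the pointwise upper bound -/
theorem pt_upper {w Θ β : Matrix (Fin n) (Fin n) ℂ} (hw : w.PosDef) (hΘ : Θ.PosSemidef)
    (hβ : β.PosSemidef) {C δ : ℝ} (hC : 0 ≤ C) (hδ : 0 < δ) (hδ1 : δ ≤ 1)
    (hle : ((C : ℂ) • w - Θ).PosSemidef) {ν : ℕ} (hν : Θ.rank ≤ ν)
    (hker : Θ.rank = ν → ∀ v, Θ *ᵥ v = 0 → β *ᵥ v = 0) :
    ((Θ + (δ : ℂ) • w)⁻¹ * β).trace.re * (Θ + (δ : ℂ) • w).det.re ≤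
      (C + 1) ^ n * δ ^ (n - ν) * ((w⁻¹ * β).trace.re * w.det.re) := by
  obtain ⟨T, U, θ, hθ, hUT, hTU, rfl, rfl⟩ := QN.H327.exists_frame hw hΘ
  have h1 : Tᴴ * Uᴴ = 1 := by rw [← conjTranspose_mul, hUT, conjTranspose_one]
  have e1 : T * Tᴴ = T * rdiag (fun _ => 1) * Tᴴ := by simp [rdiag]
  have hfr := frame_add (T := T) θ δ
  have hθC : ∀ k, θ k ≤ C := by
    intro k
    have h2 := hle.mul_mul_conjTranspose_same U
    have h3 : U * ((C : ℂ) • (T * Tᴴ) - T * rdiag θ * Tᴴ) * Uᴴ = rdiag (fun k => C - θ k) := by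
      calc U * ((C : ℂ) • (T * Tᴴ) - T * rdiag θ * Tᴴ) * Uᴴ
          = (C : ℂ) • ((U * T) * (Tᴴ * Uᴴ)) - (U * T) * rdiag θ * (Tᴴ * Uᴴ) := by
            rw [Matrix.mul_sub, Matrix.sub_mul, Matrix.mul_smul, Matrix.smul_mul]
            congr 1
            · congr 1; noncomm_ring
            · noncomm_ring
        _ = (C : ℂ) • 1 - rdiag θ := by rw [hUT, h1]; simp
        _ = _ := by
            ext i j
            simp only [rdiag, diagonal_apply, Matrix.sub_apply, Matrix.smul_apply,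
              Matrix.one_apply, smul_eq_mul]
            split_ifs <;> push_cast <;> simp
    rw [h3] at h2
    have h4 := (Complex.le_def.1 (h2.diag_nonneg (i := k))).1
    rw [rdiag, diagonal_apply_eq, Complex.ofReal_re, Complex.zero_re] at h4
    linarith
  have hrank := rank_frame hTU θ
  set b : Fin n → ℝ := fun i => ((U * β * Uᴴ) i i).re with hb
  have hb0 : ∀ i, 0 ≤ b i := entry_nonneg hβ U
  have eL : ((T * rdiag θ * Tᴴ + (δ : ℂ) • (T * Tᴴ))⁻¹ * β).trace.re *
      (T * rdiag θ * Tᴴ + (δ : ℂ) • (T * Tᴴ)).det.re =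
      ‖T.det‖ ^ 2 * ∑ i, b i * ∏ k ∈ Finset.univ.erase i, (θ k + δ) := by
    rw [hfr, tr_det_frame β hUT hTU (fun k => θ k + δ) (fun k => by have := hθ k; positivity)]
  have eR : ((T * Tᴴ)⁻¹ * β).trace.re * (T * Tᴴ).det.re = ‖T.det‖ ^ 2 * ∑ i, b i := by
    rw [e1, tr_det_frame β hUT hTU (fun _ => 1) (fun _ => one_ne_zero)]
    simp only [Finset.prod_const_one, mul_one, hb]
  show ((T * rdiag θ * Tᴴ + (δ : ℂ) • (T * Tᴴ))⁻¹ * β).trace.re *
      (T * rdiag θ * Tᴴ + (δ : ℂ) • (T * Tᴴ)).det.re ≤ _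
  rw [eL, eR]
  have key : ∀ i, b i * ∏ k ∈ Finset.univ.erase i, (θ k + δ) ≤
      (C + 1) ^ n * δ ^ (n - ν) * b i := by
    intro i
    -- split the product
    have hsplit : ∏ k ∈ Finset.univ.erase i, (θ k + δ) ≤
        (C + 1) ^ n * δ ^ ((Finset.univ.erase i).filter fun k => θ k = 0).card := by
      rw [← Finset.prod_filter_mul_prod_filter_not (Finset.univ.erase i) (fun k => θ k = 0),
        mul_comm]
      have hz : ∏ k ∈ (Finset.univ.erase i).filter (fun k => θ k = 0), (θ k + δ) =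
          δ ^ ((Finset.univ.erase i).filter fun k => θ k = 0).card := by
        rw [← Finset.prod_const]
        refine Finset.prod_congr rfl fun k hk => ?_
        rw [(Finset.mem_filter.1 hk).2, zero_add]
      rw [hz]
      refine mul_le_mul_of_nonneg_right ?_ (by positivity)
      calc ∏ k ∈ (Finset.univ.erase i).filter (fun k => ¬ θ k = 0), (θ k + δ)
          ≤ ∏ k ∈ (Finset.univ.erase i).filter (fun k => ¬ θ k = 0), (C + 1) :=
            Finset.prod_le_prod (fun k _ => by have := hθ k; positivity)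
              (fun k _ => add_le_add (hθC k) hδ1)
        _ = (C + 1) ^ ((Finset.univ.erase i).filter fun k => ¬ θ k = 0).card := by
            rw [Finset.prod_const]
        _ ≤ (C + 1) ^ n := by
            refine pow_le_pow_right₀ (by linarith) ?_
            calc _ ≤ (Finset.univ : Finset (Fin n)).card := Finset.card_le_card (by
                    intro k _; exact Finset.mem_univ k)
              _ = n := by simp
    by_cases hi : b i = 0
    · simp [hi]
    -- count
    have hcount : n - ν ≤ ((Finset.univ.erase i).filter fun k => θ k = 0).card := by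
      have hc1 : (Finset.univ.filter fun k => θ k = 0).card +
          (Finset.univ.filter fun k => θ k ≠ 0).card = n := by
        have := Finset.card_filter_add_card_filter_not (s := (Finset.univ : Finset (Fin n)))
          (fun k => θ k = 0)
        simpa using this
      have hrank' : (Finset.univ.filter fun k => θ k ≠ 0).card ≤ ν := hrank ▸ hν
      rw [Finset.filter_erase] 
      by_cases hθi : θ i = 0
      · rw [Finset.card_erase_of_mem (by simp [hθi])]
        have hlt : (Finset.univ.filter fun k => θ k ≠ 0).card ≠ ν := by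
          intro heq
          apply hi
          have hk := hker (hrank.trans heq) (Uᴴ *ᵥ Pi.single i 1) (by
            rw [Matrix.mulVec_mulVec]
            have : T * rdiag θ * Tᴴ * Uᴴ = T * rdiag θ := by
              rw [Matrix.mul_assoc, h1, Matrix.mul_one]
            show (T * rdiag θ * Tᴴ * Uᴴ) *ᵥ Pi.single i 1 = 0
            rw [this, ← Matrix.mulVec_mulVec]
            have h5 : rdiag θ *ᵥ Pi.single i 1 = 0 := by
              ext k
              rw [rdiag, mulVec_diagonal]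
              by_cases hki : k = i
              · subst hki; simp [hθi]
              · simp [Pi.single_eq_of_ne hki]
            rw [h5, Matrix.mulVec_zero])
          have h6 : (U * β * Uᴴ) i i = (U *ᵥ (β *ᵥ (Uᴴ *ᵥ Pi.single i 1))) i := by
            rw [Matrix.mulVec_mulVec, Matrix.mulVec_mulVec, Matrix.mulVec_single_one,
              Matrix.col_apply]
          show ((U * β * Uᴴ) i i).re = 0
          rw [h6, hk]
          simp
        omega
      · rw [Finset.erase_eq_of_notMem (by simp [hθi])]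
        omega
    calc b i * ∏ k ∈ Finset.univ.erase i, (θ k + δ)
        ≤ b i * ((C + 1) ^ n * δ ^ ((Finset.univ.erase i).filter fun k => θ k = 0).card) :=
          mul_le_mul_of_nonneg_left hsplit (hb0 i)
      _ ≤ b i * ((C + 1) ^ n * δ ^ (n - ν)) := by
          refine mul_le_mul_of_nonneg_left (mul_le_mul_of_nonneg_left ?_ (by positivity)) (hb0 i)
          exact pow_le_pow_of_le_one hδ.le hδ1 hcount
      _ = _ := by ring
  calc ‖T.det‖ ^ 2 * ∑ i, b i * ∏ k ∈ Finset.univ.erase i, (θ k + δ)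
      ≤ ‖T.det‖ ^ 2 * ∑ i, (C + 1) ^ n * δ ^ (n - ν) * b i :=
        mul_le_mul_of_nonneg_left (Finset.sum_le_sum fun i _ => key i) (by positivity)
    _ = _ := by rw [← Finset.mul_sum]; ring

/-! ### coefficients of `det (Θ + δ w)` -/

open Polynomial in
/-- `det (Θ + δ w)` is a polynomial in `δ` with nonnegative coefficients -/
theorem exists_poly {w Θ : Matrix (Fin n) (Fin n) ℂ} (hw : w.PosDef) (hΘ : Θ.PosSemidef) :
    ∃ p : Polynomial ℝ, p.natDegree ≤ n ∧ (∀ k, 0 ≤ p.coeff k) ∧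
      (∀ δ : ℝ, (Θ + (δ : ℂ) • w).det.re = p.eval δ) ∧ 0 < p.coeff (n - Θ.rank) := by
  obtain ⟨T, U, θ, hθ, hUT, hTU, rfl, rfl⟩ := QN.H327.exists_frame hw hΘ
  have hrank := rank_frame hTU θ
  have hT : 0 < ‖T.det‖ ^ 2 := by
    have := norm_pos_iff.2 (det_ne hTU)
    positivity
  have hcf : ∀ s : Finset (Fin n), ∀ k, 0 ≤ (∏ j ∈ s, (X + C (θ j))).coeff k := by
    intro s
    induction s using Finset.induction_on with
    | empty => intro k; rw [Finset.prod_empty, coeff_one]; split_ifs <;> norm_num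
    | insert a s ha ih =>
      intro k
      rw [Finset.prod_insert ha, add_mul, coeff_add, coeff_C_mul]
      refine add_nonneg ?_ (mul_nonneg (hθ a) (ih k))
      cases k with
      | zero => rw [coeff_X_mul_zero]
      | succ k => rw [coeff_X_mul]; exact ih k
  refine ⟨C (‖T.det‖ ^ 2) * ∏ j, (X + C (θ j)), ?_, ?_, ?_, ?_⟩
  · refine (natDegree_C_mul_le _ _).trans ?_
    refine (natDegree_prod_le _ _).trans ?_
    simp
  · intro k
    rw [coeff_C_mul]
    exact mul_nonneg hT.le (hcf _ k)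
  · intro δ
    show (T * rdiag θ * Tᴴ + (δ : ℂ) • (T * Tᴴ)).det.re = _
    rw [frame_add, det_frame_re, eval_mul, eval_C, eval_prod]
    congr 1
    refine Finset.prod_congr rfl fun k _ => ?_
    simp [add_comm]
  · show 0 < (C (‖T.det‖ ^ 2) * ∏ j, (X + C (θ j))).coeff (n - (T * rdiag θ * Tᴴ).rank)
    rw [hrank, coeff_C_mul]
    refine mul_pos hT ?_
    have hc1 : (Finset.univ.filter fun k => θ k = 0).card +
        (Finset.univ.filter fun k => θ k ≠ 0).card = n := by
      have := Finset.card_filter_add_card_filter_not (s := (Finset.univ : Finset (Fin n)))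
        (fun k => θ k = 0)
      simpa using this
    have hn : n - (Finset.univ.filter fun k => θ k ≠ 0).card =
        (Finset.univ.filter fun k => θ k = 0).card := by omega
    rw [hn, ← Finset.prod_filter_mul_prod_filter_not Finset.univ (fun k => θ k = 0)]
    have hz : ∏ k ∈ Finset.univ.filter (fun k => θ k = 0), (X + C (θ k)) =
        X ^ (Finset.univ.filter fun k => θ k = 0).card := by
      rw [← Finset.prod_const]
      refine Finset.prod_congr rfl fun k hk => ?_
      rw [(Finset.mem_filter.1 hk).2, C_0, add_zero]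
    rw [hz, coeff_X_pow_mul', if_pos le_rfl, Nat.sub_self, coeff_zero_eq_eval_zero, eval_prod]
    refine Finset.prod_pos fun k hk => ?_
    have h2 := (Finset.mem_filter.1 hk).2
    simp only [eval_add, eval_X, eval_C, zero_add]
    exact lt_of_le_of_ne (hθ k) (Ne.symm h2)

/-- coefficients of Lagrange polynomials -/
def lamc (n k : ℕ) (j : Fin (n + 1)) : ℝ :=
  (Lagrange.basis (Finset.univ : Finset (Fin (n + 1))) (fun i => (i : ℝ)) j).coeff k

open Polynomial in
lemma coeff_eq_lamc {p : Polynomial ℝ} (hp : p.natDegree ≤ n) (k : ℕ) :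
    p.coeff k = ∑ j : Fin (n + 1), lamc n k j * p.eval (j : ℝ) := by
  have hdeg : p.degree < (Finset.univ : Finset (Fin (n + 1))).card := by
    rw [Finset.card_univ, Fintype.card_fin]
    refine lt_of_le_of_lt degree_le_natDegree ?_
    exact_mod_cast Nat.lt_succ_of_le hp
  have hinj : Set.InjOn (fun i : Fin (n + 1) => (i : ℝ)) (Finset.univ : Finset (Fin (n + 1))) := by
    intro i _ j _ h
    simp only at h
    exact Fin.ext (by exact_mod_cast h)
  have h := Lagrange.eq_interpolate hinj hdeg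
  have h2 := congrArg (fun q => coeff q k) h
  simp only [Lagrange.interpolate_apply, finsetSum_coeff] at h2
  rw [h2]
  refine Finset.sum_congr rfl fun j _ => ?_
  rw [coeff_C_mul, lamc, mul_comm]

end Vale.Agent.P299.H738.El
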