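import Vale.Agent.P299.H738.OpG
import Vale.Agent.P299.H956.D1.Imm
import Vale.Agent.P268.Hol

/-!
# P299, D2: a positive solution of `ΔG = lG` of maximal logarithmic gradient on the covering

Proof of `BochStatement` (H760/Iface.lean) from `SMPStatement`.
-/

open scoped Manifold ContDiff ComplexOrder Topology ComplexConjugate
open Complex Filter Set Matrix

set_option linter.unusedSectionVars false
set_option maxSynthPendingDepth 3

noncomputable section

namespace Vale.Agent.P299.H738

open Vale.Agent.P272.K Vale.Agent.P272.K.AMP Vale.Agent.P299.D2 Vale.Agent.P299.H760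
  Vale.Agent.P299.D Vale.Agent.P299.H956

section loc

variable {n : ℕ} {g : Cm n → Matrix (Fin n) (Fin n) ℂ} {u v : Cm n → ℝ} {z : Cm n}
  {U : Set (Cm n)}

lemma lapG_const_sub {s : ℝ} (hv : ContDiffAt ℝ 2 v z) :
    lapG g (fun y => s - v y) z = - lapG g v z := by
  have h1 : cHess (fun y => s - v y) z = cHess (fun _ => s) z - cHess v z :=
    cHess_sub contDiffAt_const hv
  rw [lapG, h1, C2.cHess_const, zero_sub, Matrix.mul_neg, Matrix.trace_neg, Complex.neg_re, lapG]

/-- **strong maximum principle** for `|∂ log u|²` -/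
theorem local_const (hSMP : SMPStatement) (hU : IsOpen U) (hK : KahOn g U) (hR : RicOn g U)
    {μ : ℝ} (hu : ∀ z ∈ U, ContDiffAt ℝ ∞ u z) (hpos : ∀ z ∈ U, 0 < u z)
    (heq : ∀ z ∈ U, lapG g u z = μ * u z) {s : ℝ}
    (hle : ∀ z ∈ U, gradG g (fun y => Real.log (u y)) (fun y => Real.log (u y)) z ≤ s)
    {z₀ : Cm n} (hz₀ : z₀ ∈ U)
    (h0 : gradG g (fun y => Real.log (u y)) (fun y => Real.log (u y)) z₀ = s) :
    ∀ᶠ z in 𝓝 z₀, gradG g (fun y => Real.log (u y)) (fun y => Real.log (u y)) z = s := by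
  obtain ⟨hQs, -, -, hB, -⟩ := boch n g U hU hK hR μ u hu hpos heq
  set v : Cm n → ℝ := fun y => Real.log (u y) with hv
  set Q : Cm n → ℝ := gradG g v v with hQ
  have hvs : ∀ z ∈ U, ContDiffAt ℝ ∞ v z := fun z hz => (hu z hz).log (hpos z hz).ne'
  have hB' : ∀ z ∈ U, 0 ≤ lapG g Q z + 2 * gradG g v Q z := by
    intro z hz
    rcases Nat.eq_zero_or_pos n with rfl | hn
    · simp [lapG, gradG, Matrix.trace]
    · have h1 := (sq_nonneg (μ - Q z)).trans (hB z hz)
      exact nonneg_of_mul_nonneg_right h1 (by exact_mod_cast hn)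
  have h := hSMP (Cm n) (fun y => opG (g y)) U (ellOn_opG hU hK.smooth hK.posDef) (drift g v)
    (continuousOn_drift hK.smooth hK.posDef hvs) 0 (fun z => s - Q z)
    (fun z hz => contDiffAt_const.sub ((hQs z hz).of_le (by norm_cast)))
    (fun z hz => sub_nonneg.2 (hle z hz)) ?_ z₀ hz₀ (by simp [h0])
  · filter_upwards [h] with z hz
    exact (sub_eq_zero.1 hz).symm
  · intro z hz
    have h2 : ContDiffAt ℝ 2 Q z := (hQs z hz).of_le (by norm_cast)
    rw [lop_opG (contDiffAt_const.sub h2), drift_apply, lapG_const_sub h2,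
      gradG_const_sub (hQs z hz), zero_mul]
    have := hB' z hz
    linarith

/-- if `|∂ log u|² = s` then `s = μ` -/
theorem local_value (hU : IsOpen U) (hK : KahOn g U) (hR : RicOn g U)
    {μ : ℝ} (hu : ∀ z ∈ U, ContDiffAt ℝ ∞ u z) (hpos : ∀ z ∈ U, 0 < u z)
    (heq : ∀ z ∈ U, lapG g u z = μ * u z) {s : ℝ}
    (h : ∀ z ∈ U, gradG g (fun y => Real.log (u y)) (fun y => Real.log (u y)) z = s)
    (hz : z ∈ U) : s = μ := by
  obtain ⟨hQs, -, -, hB, -⟩ := boch n g U hU hK hR μ u hu hpos heq
  set v : Cm n → ℝ := fun y => Real.log (u y) with hv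
  set Q : Cm n → ℝ := gradG g v v with hQ
  have hc : Q =ᶠ[𝓝 z] fun _ => s := by
    filter_upwards [hU.mem_nhds hz] with y hy using h y hy
  have h1 : lapG g Q z = 0 := by
    rw [lapG, cHess_congr hc, C2.cHess_const]
    simp
  have h2 : gradG g v Q z = 0 := by
    rw [gradG]
    have : ddG v Q z = 0 := by
      ext i j
      rw [ddG, Matrix.of_apply, dzb_eq_p10, hc.fderiv_eq]
      simp [p10]
    rw [this]; simp
  have h3 := hB z hz
  rw [h1, h2, h z hz] at h3
  have h4 : (μ - s) ^ 2 = 0 := le_antisymm (by simpa using h3) (sq_nonneg _)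
  have := pow_eq_zero_iff (two_ne_zero) |>.1 h4
  linarith

/-! ### holomorphy from `∂̄ = 0` (as in helper954's `Holo.lean`) -/

theorem differentiableAt_of_dzb {F : Cm n → ℂ} {z : Cm n} (hF : DifferentiableAt ℝ F z)
    (h : ∀ l, dzb l F z = 0) : DifferentiableAt ℂ F z := by
  have hI : ∀ j, fderiv ℝ F z (Pi.single j Complex.I) =
      Complex.I * fderiv ℝ F z (Pi.single j 1) := by
    intro j
    have h1 := h j
    unfold dzb at h1
    have h2 : fderiv ℝ F z (Pi.single j 1) +
        Complex.I * fderiv ℝ F z (Pi.single j Complex.I) = 0 := by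
      simpa using h1
    linear_combination (-Complex.I) * h2 + (fderiv ℝ F z (Pi.single j Complex.I)) * Complex.I_mul_I
  rw [differentiableAt_iff_restrictScalars ℝ hF]
  refine ⟨∑ j, (fderiv ℝ F z (Pi.single j 1)) • (ContinuousLinearMap.proj j : Cm n →L[ℂ] ℂ), ?_⟩
  ext v
  have hv : v = ∑ j, ((v j).re • (Pi.single j (1 : ℂ) : Cm n) +
      (v j).im • (Pi.single j Complex.I : Cm n)) := N.decomp v
  conv_rhs => rw [hv]
  simp only [map_sum, map_add, map_smul, hI]
  simp only [ContinuousLinearMap.coe_restrictScalars', _root_.sum_apply, _root_.smul_apply,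
    ContinuousLinearMap.proj_apply, smul_eq_mul, Complex.real_smul]
  refine Finset.sum_congr rfl fun j _ => ?_
  conv_lhs => rw [← Complex.re_add_im (v j)]
  ring

theorem analyticAt_of_dzb {F : Cm n → ℂ} {z : Cm n}
    (h : ∀ᶠ y in 𝓝 z, DifferentiableAt ℝ F y ∧ ∀ l, dzb l F y = 0) : AnalyticAt ℂ F z := by
  obtain ⟨U, hU, hUo, hz⟩ := eventually_nhds_iff.1 h
  exact Vale.Agent.P268.analyticAt_of_differentiableOn hUo
    (fun y hy => (differentiableAt_of_dzb (hU y hy).1 (hU y hy).2).differentiableWithinAt) hz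

end loc

section glob

variable {n : ℕ} {M : Type*} [TopologicalSpace M] [ChartedSpace (Cm n) M] {W : FormM n M}
  {e : Chart n M} {u : M → ℝ}

lemma kahOn_target (hW : IsKahler W) (he : e ∈ atlas (Cm n) M) : KahOn (W e) e.target where
  smooth z hz i j := by
    have := hW.smooth e (e.symm z) (At.of_target he hz) i j
    rwa [e.right_inv hz] at this
  posDef z hz := by
    have := hW.posDef e (e.symm z) (At.of_target he hz)
    rwa [e.right_inv hz] at this
  closed z hz i j k := by
    have := hW.closed e (e.symm z) (At.of_target he hz) i j k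
    rwa [e.right_inv hz] at this

lemma ricOn_target (hR : RicNonneg W) (he : e ∈ atlas (Cm n) M) : RicOn (W e) e.target := by
  intro z hz
  have := hR e (e.symm z) (At.of_target he hz)
  rwa [e.right_inv hz] at this

lemma smooth_target (hu : SmoothFn (n := n) u) (he : e ∈ atlas (Cm n) M) {z : Cm n}
    (hz : z ∈ e.target) : ContDiffAt ℝ ∞ (fun y => u (e.symm y)) z := by
  have := hu e (e.symm z) (At.of_target he hz)
  rwa [e.right_inv hz] at this

/-- the vector field dual to `∂u`: `w(·, V̄) = ∂u` -/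
def dualV (W : FormM n M) (u : M → ℝ) : VField n M := fun e z i =>
  conj (∑ j, (W e z)⁻¹ i j * dz j (fun y => ((u (e.symm y) : ℝ) : ℂ)) z)

lemma lowerV_dualV {z : Cm n} (h : (W e z).PosDef) (i : Fin n) :
    lowerV W (dualV W u) e z i = dz i (fun y => ((u (e.symm y) : ℝ) : ℂ)) z := by
  have h1 : (W e z).mulVec ((W e z)⁻¹.mulVec
      fun j => dz j (fun y => ((u (e.symm y) : ℝ) : ℂ)) z) = fun j =>
      dz j (fun y => ((u (e.symm y) : ℝ) : ℂ)) z := by
    rw [Matrix.mulVec_mulVec, Matrix.mul_nonsing_inv _ (isUnit_iff_ne_zero.2 h.det_pos.ne'),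
      Matrix.one_mulVec]
  have h2 := congrFun h1 i
  rw [← h2]
  simp only [lowerV, dualV, Complex.conj_conj]
  rfl

variable [IsManifold 𝓘(ℂ, Cm n) ω M]

/-- **rigidity**: if `∂u` is parallel, `dualV W u` is a parallel field -/
theorem isParVF_dualV (hW : IsKahler W) (hu : SmoothFn (n := n) u)
    (h0 : ∀ e ∈ atlas (Cm n) M, ∀ z ∈ e.target, cHess (fun y => u (e.symm y)) z = 0)
    (h1 : ∀ e ∈ atlas (Cm n) M, ∀ z ∈ e.target, ∀ i k,
      dz k (fun y => dz i (fun x => ((u (e.symm x) : ℝ) : ℂ)) y) z =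
        ∑ a, ∑ b, dz k (fun y => W e y i a) z * (W e z)⁻¹ a b *
          dz b (fun x => ((u (e.symm x) : ℝ) : ℂ)) z) :
    IsParVF W (dualV W u) := by
  have hcu : ∀ e ∈ atlas (Cm n) M, ∀ z ∈ e.target,
      ContDiffAt ℝ ∞ (fun y => ((u (e.symm y) : ℝ) : ℂ)) z := fun e he z hz =>
    Vale.Agent.P272.K.ofReal_contDiffAt (smooth_target hu he hz)
  have hdu : ∀ e ∈ atlas (Cm n) M, ∀ z ∈ e.target, ∀ j,
      ContDiffAt ℝ ∞ (dz j (fun y => ((u (e.symm y) : ℝ) : ℂ))) z := fun e he z hz j =>
    contDiffAt_dz (m := ∞) (hcu e he z hz) (le_of_eq rfl)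
  have hWi : ∀ e ∈ atlas (Cm n) M, ∀ z ∈ e.target, ∀ i j,
      ContDiffAt ℝ ∞ (fun y => (W e y)⁻¹ i j) z := fun e he z hz i j =>
    contDiffAt_inv ((kahOn_target hW he).smooth z hz)
      ((kahOn_target hW he).posDef z hz).det_pos.ne' i j
  have hF : ∀ e ∈ atlas (Cm n) M, ∀ z ∈ e.target, ∀ i, ContDiffAt ℝ ∞
      (fun y => ∑ j, (W e y)⁻¹ i j * dz j (fun y => ((u (e.symm y) : ℝ) : ℂ)) y) z :=
    fun e he z hz i => ContDiffAt.sum fun j _ => (hWi e he z hz i j).mul (hdu e he z hz j)
  refine ⟨⟨?_, ?_⟩, ?_⟩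
  · -- holomorphy of `V`
    intro e x hx
    rw [analyticAt_pi_iff]
    intro i
    refine analyticAt_of_dzb ?_
    filter_upwards [hx.nhds_target] with z hz
    have hd := (hF e hx.1 z hz i).differentiableAt (by simp)
    refine ⟨Complex.conjCLE.differentiableAt.comp z hd, fun l => ?_⟩
    have e1 : dzb l (fun y => dualV W u e y i) z = cj (dz l (fun y => ∑ j, (W e y)⁻¹ i j *
        dz j (fun y => ((u (e.symm y) : ℝ) : ℂ)) y) z) := dzb_cj hd
    rw [e1]
    -- `∂_l (W⁻¹ ∂u) = 0`
    have key : (W e z).mulVec (fun i => dz l (fun y => ∑ j, (W e y)⁻¹ i j *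
        dz j (fun y => ((u (e.symm y) : ℝ) : ℂ)) y) z) = 0 := by
      funext p
      have e2 : (fun y => ∑ i, W e y p i * (∑ j, (W e y)⁻¹ i j *
          dz j (fun y => ((u (e.symm y) : ℝ) : ℂ)) y)) =ᶠ[𝓝 z]
          dz p (fun y => ((u (e.symm y) : ℝ) : ℂ)) := by
        filter_upwards [e.open_target.mem_nhds hz] with y hy
        have h3 := congrFun (show (W e y).mulVec ((W e y)⁻¹.mulVec
            fun j => dz j (fun y => ((u (e.symm y) : ℝ) : ℂ)) y) = fun j =>
            dz j (fun y => ((u (e.symm y) : ℝ) : ℂ)) y by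
          rw [Matrix.mulVec_mulVec, Matrix.mul_nonsing_inv _
            (isUnit_iff_ne_zero.2 ((kahOn_target hW hx.1).posDef y hy).det_pos.ne'),
            Matrix.one_mulVec]) p
        exact h3
      have e3 := dz_congr (i := l) e2
      have hWd : ∀ i, DifferentiableAt ℝ (fun y => W e y p i) z := fun i =>
        ((kahOn_target hW hx.1).smooth z hz p i).differentiableAt (by simp)
      have hFd : ∀ i, DifferentiableAt ℝ (fun y => ∑ j, (W e y)⁻¹ i j *
          dz j (fun y => ((u (e.symm y) : ℝ) : ℂ)) y) z := fun i =>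
        (hF e hx.1 z hz i).differentiableAt (by simp)
      rw [dz_sum (i := l) (z := z) Finset.univ (F := fun i y => W e y p i * ∑ j, (W e y)⁻¹ i j *
        dz j (fun y => ((u (e.symm y) : ℝ) : ℂ)) y) (fun i _ => (hWd i).mul (hFd i))] at e3
      have e4 := h1 e hx.1 z hz p l
      have e5 : dz l (fun y => dz p (fun x => ((u (e.symm x) : ℝ) : ℂ)) y) z =
          dz l (dz p (fun y => ((u (e.symm y) : ℝ) : ℂ))) z := rfl
      rw [e5, ← e3] at e4
      simp only [dz_mul (hWd _) (hFd _), Finset.sum_add_distrib] at e4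
      have e6 : ∑ i, dz l (fun y => W e y p i) z * (∑ j, (W e z)⁻¹ i j *
          dz j (fun y => ((u (e.symm y) : ℝ) : ℂ)) z) = ∑ a, ∑ b, dz l (fun y => W e y p a) z *
          (W e z)⁻¹ a b * dz b (fun x => ((u (e.symm x) : ℝ) : ℂ)) z := by
        refine Finset.sum_congr rfl fun a _ => ?_
        rw [Finset.mul_sum]
        exact Finset.sum_congr rfl fun b _ => (mul_assoc _ _ _).symm
      rw [← e6] at e4
      simp only [Matrix.mulVec, dotProduct, Pi.zero_apply]
      linear_combination e4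
    have hu' : IsUnit (W e z) := ((kahOn_target hW hx.1).posDef z hz).isUnit
    have := congrFun ((Matrix.mulVec_injective_of_isUnit hu') (key.trans (Matrix.mulVec_zero _).symm)) i
    simp only [Pi.zero_apply] at this
    rw [this]
    simp
  · -- change of charts
    intro e e' x h h'
    set J := jacM e e' x with hJ
    have hJu : IsUnit J.det := jacM_isUnit h h'
    have hf := hW.isForm e e' x h h'
    -- `∂u` is a form
    have hdu' : (fun i => dz i (fun y => ((u (e.symm y) : ℝ) : ℂ)) (e x)) =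
        J.transpose.mulVec fun p => dz p (fun y => ((u (e'.symm y) : ℝ) : ℂ)) (e' x) := by
      funext i
      have e1 : (fun y => ((u (e.symm y) : ℝ) : ℂ)) =ᶠ[𝓝 (e x)]
          fun y => (fun y => ((u (e'.symm y) : ℝ) : ℂ)) (e' (e.symm y)) := by
        filter_upwards [h.nhds_at h'] with z hz
        show ((u (e.symm z) : ℝ) : ℂ) = ((u (e'.symm (e' (e.symm z))) : ℝ) : ℂ)
        rw [hz.2.2.left_inv]
      have h2 : e' (e.symm (e x)) = e' x := by rw [h.left_inv]
      rw [dz_congr e1, dz_comp_holo (f := fun y => ((u (e'.symm y) : ℝ) : ℂ))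
        (τ := fun y => e' (e.symm y)) (by
          show DifferentiableAt ℝ _ (e' (e.symm (e x)))
          rw [h2]; exact (hcu e' h'.1 _ h'.mem_target).differentiableAt (by simp))
        (transition_differentiableAt h h')]
      simp only [h2]
      simp only [Matrix.mulVec, dotProduct, Matrix.transpose_apply, hJ, jacM_eq]
      exact Finset.sum_congr rfl fun p _ => mul_comm _ _
    have hWe' : IsUnit (W e' (e' x)).det := isUnit_iff_ne_zero.2 (hW.posDef e' x h').det_pos.ne'
    have hWe : IsUnit (W e (e x)).det := isUnit_iff_ne_zero.2 (hW.posDef e x h).det_pos.ne'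
    have hV : ∀ {e : Chart n M}, dualV W u e (e x) = fun i => conj (((W e (e x))⁻¹.mulVec
      fun j => dz j (fun y => ((u (e.symm y) : ℝ) : ℂ)) (e x)) i) := fun {e} => rfl
    -- `W_e⁻¹ ∂_e u = conj(J)⁻¹ W_{e'}⁻¹ ∂_{e'} u`
    have k1 : (J.map (starRingEnd ℂ)).mulVec ((W e (e x))⁻¹.mulVec
        fun j => dz j (fun y => ((u (e.symm y) : ℝ) : ℂ)) (e x)) = (W e' (e' x))⁻¹.mulVec
        fun j => dz j (fun y => ((u (e'.symm y) : ℝ) : ℂ)) (e' x) := by
      rw [hdu', Matrix.mulVec_mulVec, Matrix.mulVec_mulVec, Matrix.mul_assoc]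
      congr 1
      have k2 : (W e' (e' x)) * (J.map (starRingEnd ℂ) * ((W e (e x))⁻¹ * J.transpose)) = 1 := by
        have hJt : IsUnit J.transpose.det := by rwa [Matrix.det_transpose]
        have k3 : J.transpose * ((W e' (e' x)) * (J.map (starRingEnd ℂ) *
            ((W e (e x))⁻¹ * J.transpose))) = J.transpose * 1 := by
          have : J.transpose * ((W e' (e' x)) * (J.map (starRingEnd ℂ) *
            ((W e (e x))⁻¹ * J.transpose))) = (J.transpose * W e' (e' x) * J.map (starRingEnd ℂ)) *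
            ((W e (e x))⁻¹ * J.transpose) := by simp only [Matrix.mul_assoc]
          rw [this, ← hf, ← Matrix.mul_assoc, Matrix.mul_nonsing_inv _ hWe, Matrix.one_mul,
            Matrix.mul_one]
        exact ((Matrix.isUnit_iff_isUnit_det _).2 hJt).mul_left_cancel k3
      exact (Matrix.inv_eq_right_inv k2).symm
    rw [hV, hV]
    funext i
    have k4 := congrFun k1 i
    rw [← k4]
    simp only [Matrix.mulVec, dotProduct, map_sum, map_mul, Matrix.map_apply, Complex.conj_conj]
  · -- holomorphy of `∂u`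
    intro e x hx
    rw [analyticAt_pi_iff]
    intro i
    refine analyticAt_of_dzb ?_
    have e1 : (fun y => lowerV W (dualV W u) e y i) =ᶠ[𝓝 (e x)]
        dz i (fun y => ((u (e.symm y) : ℝ) : ℂ)) := by
      filter_upwards [hx.nhds_target] with z hz
      exact lowerV_dualV ((kahOn_target hW hx.1).posDef z hz) i
    filter_upwards [e1.eventuallyEq_nhds, hx.nhds_target] with z he1 hz
    have hd := (hdu e hx.1 z hz i).differentiableAt (by simp)
    refine ⟨hd.congr_of_eventuallyEq he1, fun l => ?_⟩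
    rw [dzb_congr he1, ← dz_dzb_comm ((hcu e hx.1 z hz).of_le (by norm_cast))]
    exact congrFun (congrFun (h0 e hx.1 z hz) i) l

/-- `∂u(V) = |∂u|²` -/
lemma du_dualV {z : Cm n} (h : (W e z).PosDef) :
    (∑ i, dz i (fun y => ((u (e.symm y) : ℝ) : ℂ)) z * dualV W u e z i).re = gradE W u u e z := by
  have h2 : ∀ i j, conj ((W e z)⁻¹ i j) = (W e z)⁻¹ j i := fun i j => by
    have := h.inv.isHermitian
    exact this.apply j i
  rw [gradE]
  congr 1
  simp only [Matrix.trace, Matrix.diag_apply, Matrix.mul_apply, dd, Matrix.of_apply, dualV, map_sum,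
    map_mul, Finset.mul_sum, h2]
  rw [Finset.sum_comm]
  refine Finset.sum_congr rfl fun i _ => Finset.sum_congr rfl fun j _ => ?_
  rw [dzb_eq_p10, dz_eq_p10, dz_eq_p10]
  ring

variable [ConnectedSpace M]

/-- **`|∂ log G|²` is constant** -/
theorem grad_const (hSMP : SMPStatement) (hW : IsKahler W) (hR : RicNonneg W) {l : ℝ} {G : M → ℝ}
    (hG : SmoothFn (n := n) G) (hpos : ∀ m, 0 < G m) (heq : ∀ m, lapX W G m = l * G m) {s : ℝ}
    (hle : ∀ m, gradX W (fun x => Real.log (G x)) (fun x => Real.log (G x)) m ≤ s)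
    (hat : ∃ m, gradX W (fun x => Real.log (G x)) (fun x => Real.log (G x)) m = s) :
    s = l ∧ ∀ m, gradX W (fun x => Real.log (G x)) (fun x => Real.log (G x)) m = l := by
  have hlog : SmoothFn (n := n) (fun x => Real.log (G x)) := sm_log hG hpos
  have hsm : SmoothFn (n := n) (gradX W (fun x => Real.log (G x)) (fun x => Real.log (G x))) :=
    smoothFn_gradX hW.toIsHermitian hlog hlog
  -- translation to the charts
  have hch : ∀ (e : Chart n M), e ∈ atlas (Cm n) M → ∀ z ∈ e.target,
      gradG (W e) (fun y => Real.log (G (e.symm y))) (fun y => Real.log (G (e.symm y))) z =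
        gradX W (fun x => Real.log (G x)) (fun x => Real.log (G x)) (e.symm z) := by
    intro e he z hz
    have h1 := gradX_eq hW.toIsHermitian hlog hlog (At.of_target he hz)
    rw [h1, e.right_inv hz]
    rfl
  have heq' : ∀ (e : Chart n M), e ∈ atlas (Cm n) M → ∀ z ∈ e.target,
      lapG (W e) (fun y => G (e.symm y)) z = l * G (e.symm z) := by
    intro e he z hz
    rw [← heq, lapX_eq hW.toIsHermitian hG (At.of_target he hz), e.right_inv hz]
    rfl
  have hcont : Continuous (gradX W (fun x => Real.log (G x)) (fun x => Real.log (G x))) := by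
    rw [continuous_iff_continuousAt]
    intro m
    have hm := AMP.at_chartAt (n := n) m
    have h1 : ContinuousAt (fun x : M => gradX W (fun x => Real.log (G x))
        (fun x => Real.log (G x)) ((chartAt (Cm n) m).symm (chartAt (Cm n) m x))) m := by
      have h2 := (hsm (chartAt (Cm n) m) m hm).continuousAt
      exact ContinuousAt.comp (f := chartAt (Cm n) m) h2
        ((chartAt (Cm n) m).continuousAt hm.2)
    refine h1.congr ?_
    filter_upwards [(chartAt (Cm n) m).open_source.mem_nhds hm.2] with x hx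
    rw [(chartAt (Cm n) m).left_inv hx]
  set F := gradX W (fun x => Real.log (G x)) (fun x => Real.log (G x)) with hF
  have hclopen : IsClopen {m | F m = s} := by
    refine ⟨isClosed_eq hcont continuous_const, isOpen_iff_mem_nhds.2 fun m hm => ?_⟩
    have ha := AMP.at_chartAt (n := n) m
    set e := chartAt (Cm n) m with he
    have h1 := local_const (g := W e) (u := fun y => G (e.symm y)) hSMP e.open_target
      (kahOn_target hW ha.1)
      (ricOn_target hR ha.1) (μ := l) (fun z hz => smooth_target hG ha.1 hz)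
      (fun z _ => hpos _) (heq' e ha.1) (s := s)
      (fun z hz => by rw [hch e ha.1 z hz]; exact hle _) ha.mem_target
      (by rw [hch e ha.1 _ ha.mem_target, ha.left_inv]; exact hm)
    have h2 : ∀ᶠ x in 𝓝 m, F (e.symm (e x)) = s := by
      have h3 := (e.continuousAt ha.2).eventually h1
      filter_upwards [h3, e.open_source.mem_nhds ha.2] with x hx hxs
      rw [← hch e ha.1 _ (e.map_source hxs)]
      exact hx
    filter_upwards [h2, e.open_source.mem_nhds ha.2] with x hx hxs
    rw [e.left_inv hxs] at hx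
    exact hx
  have huniv : {m | F m = s} = univ := by
    rcases isClopen_iff.1 hclopen with h | h
    · obtain ⟨m, hm⟩ := hat
      exact absurd (show m ∈ {m | F m = s} from hm) (by rw [h]; simp)
    · exact h
  have hall : ∀ m, F m = s := fun m => by
    have : m ∈ {m | F m = s} := by rw [huniv]; trivial
    exact this
  obtain ⟨m, hm⟩ := hat
  have ha := AMP.at_chartAt (n := n) m
  have hsl : s = l := local_value (g := W (chartAt (Cm n) m))
    (u := fun y => G ((chartAt (Cm n) m).symm y)) (chartAt (Cm n) m).open_target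
    (kahOn_target hW ha.1) (ricOn_target hR ha.1) (μ := l)
    (fun z hz => smooth_target hG ha.1 hz) (fun z _ => hpos _) (heq' _ ha.1) (s := s)
    (fun z hz => by rw [hch _ ha.1 z hz]; exact hall _) ha.mem_target
  exact ⟨hsl, fun m => (hall m).trans hsl⟩

/-- the gradient field of `log G` is parallel -/
theorem isParVF_log (hW : IsKahler W) (hR : RicNonneg W) {l : ℝ} {G : M → ℝ}
    (hG : SmoothFn (n := n) G) (hpos : ∀ m, 0 < G m) (heq : ∀ m, lapX W G m = l * G m)
    (hl : ∀ m, gradX W (fun x => Real.log (G x)) (fun x => Real.log (G x)) m = l) :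
    IsParVF W (dualV W (fun x => Real.log (G x))) := by
  have hlog : SmoothFn (n := n) (fun x => Real.log (G x)) := sm_log hG hpos
  have hch : ∀ (e : Chart n M), e ∈ atlas (Cm n) M → ∀ z ∈ e.target,
      gradG (W e) (fun y => Real.log (G (e.symm y))) (fun y => Real.log (G (e.symm y))) z = l := by
    intro e he z hz
    have h1 := gradX_eq hW.toIsHermitian hlog hlog (At.of_target he hz)
    rw [← hl (e.symm z), h1, e.right_inv hz]
    rfl
  have heq' : ∀ (e : Chart n M), e ∈ atlas (Cm n) M → ∀ z ∈ e.target,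
      lapG (W e) (fun y => G (e.symm y)) z = l * G (e.symm z) := by
    intro e he z hz
    rw [← heq, lapX_eq hW.toIsHermitian hG (At.of_target he hz), e.right_inv hz]
    rfl
  have hb := fun (e : Chart n M) (he : e ∈ atlas (Cm n) M) =>
    (boch n (W e) e.target e.open_target (kahOn_target hW he) (ricOn_target hR he) l
      (fun y => G (e.symm y)) (fun z hz => smooth_target hG he hz) (fun z _ => hpos _)
      (heq' e he)).2.2.2.2 (hch e he)
  exact isParVF_dualV hW hlog (fun e he => (hb e he).1) (fun e he => (hb e he).2)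

end glob

section split

variable {n : ℕ} {X : Type} [TopologicalSpace X] [ChartedSpace (Cm n) X]
  [IsManifold 𝓘(ℂ, Cm n) ω X] {w : FormM n X}

lemma isKahler_M (hw : IsKahler w) (S : Split n X w) : IsKahler (pullM S.π w : FormM n S.M) :=
  isKahler_pullM hw S.loc.contMDiff (immersive_of_localDiffeo S.loc)

lemma ricNonneg_M (hw : IsKahler w) (hR : RicNonneg w) (S : Split n X w) :
    RicNonneg (pullM S.π w : FormM n S.M) := by
  intro e m h
  have hc := AMP.at_chartAt (n := n) (S.π m)
  rw [ric_local hw.toIsHermitian S.loc.contMDiff (immersive_of_localDiffeo S.loc) h hc]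
  have h1 : (jacF S.π e (chartAt (Cm n) (S.π m)) m).transpose =
      ((jacF S.π e (chartAt (Cm n) (S.π m)) m).map (starRingEnd ℂ)).conjTranspose := by
    ext i j
    simp [Matrix.conjTranspose_apply]
  rw [h1]
  exact (hR _ _ hc).conjTranspose_mul_mul_same _

/-- **contradiction**: there is no positive solution of `ΔG = lG`, `l > 0`, constant along `Y 0`, of
maximal logarithmic gradient. -/
theorem no_max_solution (hSMP : SMPStatement) (hw : IsKahler w) (hR : RicNonneg w)
    (S : Split n X w) {l : ℝ} (hl : 0 < l) {G : S.M → ℝ} (hG : SmoothFn (n := n) G)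
    (hpos : ∀ m, 0 < G m) (heq : ∀ m, lapX (n := n) (pullM S.π w) G m = l * G m)
    (hinv : ∀ m m', SameN S m m' → G m = G m') {s : ℝ}
    (hle : ∀ m, gradX (n := n) (pullM S.π w) (fun x => Real.log (G x)) (fun x => Real.log (G x)) m ≤ s)
    (hat : ∃ m, gradX (n := n) (pullM S.π w) (fun x => Real.log (G x)) (fun x => Real.log (G x)) m = s) :
    False := by
  have hW := isKahler_M hw S
  have hRW := ricNonneg_M hw hR S
  have hconn : ConnectedSpace S.M := inferInstance
  obtain ⟨-, hQ⟩ := grad_const hSMP hW hRW hG hpos heq hle hat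
  have hpar := isParVF_log hW hRW hG hpos heq hQ
  have hlog : SmoothFn (n := n) (fun x => Real.log (G x)) := sm_log hG hpos
  obtain ⟨m, -⟩ := hat
  have ha := AMP.at_chartAt (n := n) m
  set e := chartAt (Cm n) m with he
  set V := dualV (pullM S.π w) (fun x => Real.log (G x)) with hV
  set ξ : Cm n := V e (e m) with hξ
  let e' : (i : Fin 3) → Chart (S.d i) (S.Y i) := fun i => chartAt (Cm (S.d i)) (S.Φ m i)
  have ha' : ∀ i, At (e' i) (S.Φ m i) := fun i => AMP.at_chartAt (n := S.d i) (S.Φ m i)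
  set σ : S.Y 0 → S.M := fun y => S.Φ.symm (Function.update (S.Φ m) 0 y) with hσ
  have hσm : σ (S.Φ m 0) = m := by
    rw [hσ]; simp only [Function.update_eq_self]; exact S.Φ.symm_apply_apply m
  have hσhol : ContMDiff 𝓘(ℂ, Cm (S.d 0)) 𝓘(ℂ, Cm n) ω σ := S.slice_hol 0 (S.Φ m)
  have hσat : At e (σ (S.Φ m 0)) := by rw [hσm]; exact ha
  set η : Cm (S.d 0) := (jacF (fun m => S.Φ m 0) e (e' 0) m).mulVec ξ with hη
  -- `dσ(η) = ξ`
  have key : (jacF σ (e' 0) e (S.Φ m 0)).mulVec η = ξ := by
    have h1 := S.jac_inj e m e' ha ha' ((jacF σ (e' 0) e (S.Φ m 0)).mulVec η - ξ) ?_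
    · exact sub_eq_zero.1 h1
    · intro i
      have hΦi : ContMDiffAt 𝓘(ℂ, Cm n) 𝓘(ℂ, Cm (S.d i)) ω (fun m => S.Φ m i) (σ (S.Φ m 0)) :=
        (S.Φ_hol i).contMDiffAt
      have hc := jacF_comp (f := σ) (g := fun m => S.Φ m i) (y := S.Φ m 0) (e := e' 0) (e' := e)
        (e'' := e' i) hσhol.contMDiffAt hΦi (ha' 0) hσat (by rw [hσm]; exact ha' i)
      rw [hσm] at hc
      rw [Matrix.mulVec_sub, Matrix.mulVec_mulVec, ← hc]
      by_cases hi : i = 0
      · subst hi
        have h2 : (fun y => S.Φ (σ y) 0) = fun y => y := by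
          funext y
          rw [hσ]; simp
        rw [h2, jacF_id, jacM_self (ha' 0), Matrix.one_mulVec, hη, sub_self]
      · have h2 : (fun y => S.Φ (σ y) i) = fun _ => S.Φ m i := by
          funext y
          rw [hσ]; simp [Function.update_of_ne hi]
        have h3 : jacF (fun _ : S.Y 0 => S.Φ m i) (e' 0) (e' i) (S.Φ m 0) = 0 := by
          ext p q
          simp [jacF, dz]
        rw [h2, h3, Matrix.zero_mulVec, zero_sub, S.noParM V hpar i hi e m (e' i) ha (ha' i),
          neg_zero]
  -- `∂u(ξ) = 0`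
  have hu0 : ∑ i, dz i (fun y => ((Real.log (G (e.symm y)) : ℝ) : ℂ)) (e m) * ξ i = 0 := by
    have hcu : DifferentiableAt ℝ (fun y => ((Real.log (G (e.symm y)) : ℝ) : ℂ)) (e m) :=
      (ofReal_symm_contDiffAt hlog ha).differentiableAt (by simp)
    have hτ : DifferentiableAt ℂ (fun z => e (σ ((e' 0).symm z))) (e' 0 (S.Φ m 0)) :=
      rep_diff hσhol.contMDiffAt (ha' 0) hσat
    have hτ0 : e (σ ((e' 0).symm (e' 0 (S.Φ m 0)))) = e m := by
      rw [(ha' 0).left_inv, hσm]
    have hchain : ∀ k, ∑ p, dz p (fun y => ((Real.log (G (e.symm y)) : ℝ) : ℂ)) (e m) *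
        jacF σ (e' 0) e (S.Φ m 0) p k = 0 := by
      intro k
      have h1 := dz_compR (f := fun y => ((Real.log (G (e.symm y)) : ℝ) : ℂ))
        (τ := fun z => e (σ ((e' 0).symm z))) (z := e' 0 (S.Φ m 0)) (i := k)
        (by simp only [hτ0]; exact hcu) hτ
      simp only [hτ0] at h1
      rw [jacF_eq, ← h1]
      have h2 : (fun z => ((Real.log (G (e.symm (e (σ ((e' 0).symm z))))) : ℝ) : ℂ))
          =ᶠ[𝓝 (e' 0 (S.Φ m 0))] fun _ => ((Real.log (G m) : ℝ) : ℂ) := by
        filter_upwards [nhds_at_map (f := σ) hσhol.continuous.continuousAt (ha' 0) hσat]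
          with z hz
        rw [hz.2.2.left_inv, hinv (σ ((e' 0).symm z)) m]
        intro i hi
        rw [hσ]
        simp [Function.update_of_ne hi]
      rw [dz_congr h2, dz_const]
    rw [← key]
    simp only [Matrix.mulVec, dotProduct, Finset.mul_sum]
    rw [Finset.sum_comm]
    refine Finset.sum_eq_zero fun k _ => ?_
    have := hchain k
    calc _ = (∑ p, dz p (fun y => ((Real.log (G (e.symm y)) : ℝ) : ℂ)) (e m) *
        jacF σ (e' 0) e (S.Φ m 0) p k) * η k := by
          rw [Finset.sum_mul]; exact Finset.sum_congr rfl fun p _ => by ring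
      _ = 0 := by rw [this, zero_mul]
  have h1 := du_dualV (W := pullM S.π w) (u := fun x => Real.log (G x)) (z := e m)
    (hW.posDef e m ha)
  have h2 := gradX_eq hW.toIsHermitian hlog hlog ha
  rw [← h2, hQ m] at h1
  have h3 : (∑ i, dz i (fun y => ((Real.log (G (e.symm y)) : ℝ) : ℂ)) (e m) *
      dualV (pullM S.π w) (fun x => Real.log (G x)) e (e m) i) = 0 := hu0
  rw [h3] at h1
  simp at h1
  exact hl.ne h1

end split

end Vale.Agent.P299.H738
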