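import Vale.Agent.P299.H760.Iface
import Vale.Agent.P299.H738.Boch

/-!
# P299, D2: the operator `opG` and the local Laplacian, ellipticity
-/

open scoped Manifold ContDiff ComplexOrder Topology ComplexConjugate
open Complex Filter Set Matrix

set_option linter.unusedSectionVars false
set_option maxSynthPendingDepth 3

noncomputable section

namespace Vale.Agent.P299.H738

open Vale.Agent.P272.K Vale.Agent.P272.K.AMP Vale.Agent.P299.D2 Vale.Agent.P299.H760

variable {n : ℕ} {g : Cm n → Matrix (Fin n) (Fin n) ℂ} {u v : Cm n → ℝ} {z : Cm n}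

/-- the `(1,0)`-part of a real covector -/
def p10 (ξ : Cm n →L[ℝ] ℝ) (j : Fin n) : ℂ :=
  ((ξ (Pi.single j 1) : ℝ) - I * (ξ (Pi.single j I) : ℝ)) / 2

lemma dz_eq_p10 (u : Cm n → ℝ) (z : Cm n) (j : Fin n) :
    dz j (fun y => ((u y : ℝ) : ℂ)) z = p10 (fderiv ℝ u z) j := N.dz_ofReal u j z

lemma conj_p10 (ξ : Cm n →L[ℝ] ℝ) (j : Fin n) : conj (p10 ξ j) =
    ((ξ (Pi.single j 1) : ℝ) + I * (ξ (Pi.single j I) : ℝ)) / 2 := by
  have e2 : (2 : ℂ) = ((2 : ℝ) : ℂ) := by norm_num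
  simp only [p10, e2, map_div₀, map_sub, map_mul, Complex.conj_ofReal, Complex.conj_I]
  ring

lemma dzb_eq_p10 (u : Cm n → ℝ) (z : Cm n) (j : Fin n) :
    dzb j (fun y => ((u y : ℝ) : ℂ)) z = conj (p10 (fderiv ℝ u z) j) := by
  rw [conj_p10]; exact N.dzb_ofReal u j z

lemma lev_smulRight (ξ : Cm n →L[ℝ] ℝ) (j k : Fin n) :
    N.lev (ξ.smulRight ξ) j k = p10 ξ j * conj (p10 ξ k) := by
  rw [conj_p10, N.lev_apply, p10]
  simp only [ContinuousLinearMap.smulRight_apply, _root_.smul_apply, smul_eq_mul]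
  push_cast
  have := Complex.I_mul_I
  linear_combination ((ξ (Pi.single j I) : ℂ) * (ξ (Pi.single k I) : ℂ) / 4) * this

lemma lev_eq_ddG (u : Cm n → ℝ) (z : Cm n) :
    N.lev ((fderiv ℝ u z).smulRight (fderiv ℝ u z)) = ddG u u z := by
  ext j k
  rw [lev_smulRight, ddG, Matrix.of_apply, dz_eq_p10, dzb_eq_p10]

lemma opG_smulRight (u : Cm n → ℝ) (z : Cm n) :
    opG (g z) ((fderiv ℝ u z).smulRight (fderiv ℝ u z)) = gradG g u u z := by
  rw [opG_apply, lev_eq_ddG]; rfl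

lemma lop_opG (hu : ContDiffAt ℝ 2 u z) : Lop (fun y => opG (g y)) u z = lapG g u z := by
  have h1 : DifferentiableAt ℝ (fderiv ℝ u) z :=
    (hu.fderiv_right (m := 1) (by norm_num)).differentiableAt (by norm_num)
  rw [Lop, opG_apply, lapG, N.cHess_eq_lev h1]

lemma p10_eq_zero {ξ : Cm n →L[ℝ] ℝ} (h : ∀ j, p10 ξ j = 0) : ξ = 0 := by
  ext x
  have h1 : ∀ j, ξ (Pi.single j 1) = 0 ∧ ξ (Pi.single j I) = 0 := by
    intro j
    have h2 := h j
    rw [p10, div_eq_zero_iff] at h2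
    have h3 : ((ξ (Pi.single j 1) : ℝ) : ℂ) - I * ((ξ (Pi.single j I) : ℝ) : ℂ) = 0 :=
      h2.resolve_right two_ne_zero
    have hr := congrArg Complex.re h3
    have hi := congrArg Complex.im h3
    simp at hr hi
    exact ⟨hr, hi⟩
  rw [N.decomp x, map_sum]
  simp [h1]

/-- the smooth dependence on the metric -/
lemma contDiffAt_opG {g : Cm n → Matrix (Fin n) (Fin n) ℂ}
    (hs : ∀ i j, ContDiffAt ℝ ∞ (fun y => g y i j) z) (hp : (g z).PosDef) :
    ContDiffAt ℝ ∞ (fun y => opG (g y)) z := by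
  let A : Fin n → Fin n → (B2 (Cm n) →L[ℝ] ℝ) := fun i j => LinearMap.toContinuousLinearMap
    { toFun := fun B => (N.lev B j i).re
      map_add' := fun B C => by simp [N.lev_add]
      map_smul' := fun c B => by simp [N.lev_smul] }
  let A' : Fin n → Fin n → (B2 (Cm n) →L[ℝ] ℝ) := fun i j => LinearMap.toContinuousLinearMap
    { toFun := fun B => (N.lev B j i).im
      map_add' := fun B C => by simp [N.lev_add]
      map_smul' := fun c B => by simp [N.lev_smul] }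
  have hA : ∀ i j B, A i j B = (N.lev B j i).re := fun _ _ _ => rfl
  have hA' : ∀ i j B, A' i j B = (N.lev B j i).im := fun _ _ _ => rfl
  have key : (fun y => opG (g y)) = fun y => ∑ i, ∑ j,
      (((g y)⁻¹ i j).re • A i j - ((g y)⁻¹ i j).im • A' i j) := by
    funext y
    ext1 B
    rw [opG_apply, Matrix.trace, Complex.re_sum]
    simp only [_root_.sum_apply, _root_.sub_apply, _root_.smul_apply, hA, hA', smul_eq_mul]
    refine Finset.sum_congr rfl fun i _ => ?_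
    rw [Matrix.diag_apply, Matrix.mul_apply, Complex.re_sum]
    exact Finset.sum_congr rfl fun j _ => Complex.mul_re _ _
  have hi : ∀ i j, ContDiffAt ℝ ∞ (fun y => (g y)⁻¹ i j) z :=
    fun i j => contDiffAt_inv hs hp.det_pos.ne' i j
  rw [key]
  refine ContDiffAt.sum fun i _ => ContDiffAt.sum fun j _ => ContDiffAt.sub ?_ ?_
  · exact ContDiffAt.smul (Complex.reCLM.contDiff.contDiffAt.comp z (hi i j)) contDiffAt_const
  · exact ContDiffAt.smul (Complex.imCLM.contDiff.contDiffAt.comp z (hi i j)) contDiffAt_const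

lemma opG_pos {G : Matrix (Fin n) (Fin n) ℂ} (hG : G.PosDef) {ξ : Cm n →L[ℝ] ℝ} (hξ : ξ ≠ 0) :
    0 < opG G (ξ.smulRight ξ) := by
  have h1 : p10 ξ ≠ 0 := fun h => hξ (p10_eq_zero fun j => congrFun h j)
  have h2 : (G⁻¹ * N.lev (ξ.smulRight ξ)).trace = star (p10 ξ) ⬝ᵥ (G⁻¹.mulVec (p10 ξ)) := by
    simp only [Matrix.trace, Matrix.diag_apply, Matrix.mul_apply, lev_smulRight, dotProduct,
      Matrix.mulVec, Finset.mul_sum, Pi.star_apply]
    refine Finset.sum_congr rfl fun i _ => Finset.sum_congr rfl fun j _ => ?_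
    rw [show star (p10 ξ i) = conj (p10 ξ i) from rfl]
    ring
  rw [opG_apply, h2]
  exact (Complex.pos_iff.1 (hG.inv.dotProduct_mulVec_pos h1)).1

/-- `opG` of a smooth metric is elliptic. -/
theorem ellOn_opG {U : Set (Cm n)} (hU : IsOpen U)
    (hs : ∀ z ∈ U, ∀ i j, ContDiffAt ℝ ∞ (fun y => g y i j) z) (hp : ∀ z ∈ U, (g z).PosDef) :
    EllOn (fun y => opG (g y)) U where
  isOpen := hU
  smooth z hz := contDiffAt_opG (hs z hz) (hp z hz)
  pos z hz ξ hξ := opG_pos (hp z hz) hξ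

/-- the first order operator `ξ ↦ 2 Re ⟨∂v, ξ⟩` -/
def drift (g : Cm n → Matrix (Fin n) (Fin n) ℂ) (v : Cm n → ℝ) (z : Cm n) :
    (Cm n →L[ℝ] ℝ) →L[ℝ] ℝ :=
  ∑ j, ((∑ i, (g z)⁻¹ j i * dz i (fun y => ((v y : ℝ) : ℂ)) z).re •
      ContinuousLinearMap.apply ℝ ℝ (Pi.single j 1 : Cm n) -
    (∑ i, (g z)⁻¹ j i * dz i (fun y => ((v y : ℝ) : ℂ)) z).im •
      ContinuousLinearMap.apply ℝ ℝ (Pi.single j I : Cm n))

lemma drift_apply (g : Cm n → Matrix (Fin n) (Fin n) ℂ) (v f : Cm n → ℝ) (z : Cm n) :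
    drift g v z (fderiv ℝ f z) = 2 * gradG g v f z := by
  simp only [drift, gradG, Matrix.trace, Matrix.diag_apply, Matrix.mul_apply, ddG, Matrix.of_apply,
    _root_.sum_apply, _root_.sub_apply, _root_.smul_apply, ContinuousLinearMap.apply_apply,
    smul_eq_mul, Complex.re_sum, Finset.mul_sum]
  refine Finset.sum_congr rfl fun j _ => ?_
  rw [Complex.im_sum, Finset.sum_mul, Finset.sum_mul, ← Finset.sum_sub_distrib]
  refine Finset.sum_congr rfl fun i _ => ?_
  rw [dzb_eq_p10, conj_p10, ← mul_assoc]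
  set c := (g z)⁻¹ j i * dz i (fun y => ((v y : ℝ) : ℂ)) z
  set a := fderiv ℝ f z (Pi.single j 1)
  set b := fderiv ℝ f z (Pi.single j I)
  have : c * (((a : ℂ) + I * (b : ℂ)) / 2) = (((1 / 2 : ℝ) : ℂ)) * (c * ((a : ℂ) + I * (b : ℂ))) := by
    push_cast; ring
  rw [this, Complex.re_ofReal_mul]
  simp only [Complex.mul_re, Complex.add_re, Complex.add_im, Complex.ofReal_re, Complex.ofReal_im,
    Complex.I_re, Complex.I_im, Complex.mul_im]
  ring

lemma continuousOn_drift {U : Set (Cm n)} (hs : ∀ z ∈ U, ∀ i j, ContDiffAt ℝ ∞ (fun y => g y i j) z)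
    (hp : ∀ z ∈ U, (g z).PosDef) (hv : ∀ z ∈ U, ContDiffAt ℝ ∞ v z) :
    ContinuousOn (drift g v) U := by
  intro z hz
  refine ContinuousAt.continuousWithinAt ?_
  have hi : ∀ i j, ContinuousAt (fun y => (g y)⁻¹ i j) z :=
    fun i j => (contDiffAt_inv (hs z hz) (hp z hz).det_pos.ne' i j).continuousAt
  have hd : ∀ i, ContinuousAt (fun x => dz i (fun y => ((v y : ℝ) : ℂ)) x) z := fun i =>
    (contDiffAt_dz (m := ∞) (Vale.Agent.P272.K.ofReal_contDiffAt (hv z hz)) (le_of_eq rfl)).continuousAt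
  have hc : ∀ j, ContinuousAt (fun x => ∑ i, (g x)⁻¹ j i * dz i (fun y => ((v y : ℝ) : ℂ)) x) z :=
    fun j => tendsto_finsetSum _ fun i _ => (hi j i).mul (hd i)
  unfold drift
  refine tendsto_finsetSum _ fun j _ => Tendsto.sub ?_ ?_
  · exact (Complex.continuous_re.continuousAt.comp (hc j)).smul continuousAt_const
  · exact (Complex.continuous_im.continuousAt.comp (hc j)).smul continuousAt_const

end Vale.Agent.P299.H738
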